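import Vale.Agent.P322.Defs

/-!
Elementary calculus of `phi`, `ent`, `curve` and `pairBound`.
-/

namespace Vale.Agent.P322

open Real Set

/-- slope of the dictator curve -/
noncomputable def kap (s : ℝ) : ℝ := if s = 0 then 2 else 1 + s / ((1 - s ^ 2) * artanh s)

/-- auxiliary `N s = ent s + s * artanh s` -/
noncomputable def nfun (s : ℝ) : ℝ := log 2 - log (1 - s ^ 2) / 2

/-- slope of the antisymmetric-pair curve -/
noncomputable def lamFun (s : ℝ) : ℝ := s ^ 2 / ((1 - s ^ 2) * nfun s)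

lemma one_sub_sq_pos {s : ℝ} (h₁ : -1 < s) (h₂ : s < 1) : 0 < 1 - s ^ 2 := by nlinarith

lemma artanh_eq {x : ℝ} (h₁ : -1 < x) (h₂ : x < 1) :
    artanh x = (log (1 + x) - log (1 - x)) / 2 := by
  rw [artanh_eq_half_log ⟨h₁.le, h₂.le⟩, log_div (by linarith) (by linarith)]
  ring

lemma hasDerivAt_artanh' {x : ℝ} (h₁ : -1 < x) (h₂ : x < 1) :
    HasDerivAt artanh (1 / (1 - x ^ 2)) x := by
  have e : artanh =ᶠ[nhds x] fun y => (log (1 + y) - log (1 - y)) / 2 := by
    filter_upwards [Ioo_mem_nhds h₁ h₂] with y hy using artanh_eq hy.1 hy.2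
  have hp : (1 : ℝ) + x ≠ 0 := by linarith
  have hm : (1 : ℝ) - x ≠ 0 := by linarith
  have := ((((hasDerivAt_id x).const_add 1).log hp).sub
    (((hasDerivAt_id x).const_sub 1).log hm)).div_const 2
  refine (this.congr_of_eventuallyEq e).congr_deriv ?_
  have hq : (1 : ℝ) - x ^ 2 ≠ 0 := (one_sub_sq_pos h₁ h₂).ne'
  simp only [id_eq]
  field_simp
  ring

lemma continuous_phi : Continuous phi := by
  unfold phi
  have h := Real.continuous_mul_log
  exact ((h.comp (continuous_const.add continuous_id)).add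
    (h.comp (continuous_const.sub continuous_id))).div_const 2

lemma continuous_ent : Continuous ent := continuous_const.sub continuous_phi

@[simp] lemma phi_zero : phi 0 = 0 := by simp [phi]

@[simp] lemma phi_one : phi 1 = log 2 := by
  unfold phi; norm_num

lemma phi_neg (u : ℝ) : phi (-u) = phi u := by
  unfold phi; rw [show 1 + -u = 1 - u by ring, show 1 - -u = 1 + u by ring]; ring

lemma ent_neg (u : ℝ) : ent (-u) = ent u := by simp [ent, phi_neg]

lemma ent_zero : ent 0 = log 2 := by simp [ent]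

lemma ent_one : ent 1 = 0 := by simp [ent]

lemma hasDerivAt_phi {u : ℝ} (h₁ : -1 < u) (h₂ : u < 1) : HasDerivAt phi (artanh u) u := by
  have hp : (1 : ℝ) + u ≠ 0 := by linarith
  have hm : (1 : ℝ) - u ≠ 0 := by linarith
  have a := (Real.hasDerivAt_mul_log hp).comp u ((hasDerivAt_id u).const_add 1)
  have b := (Real.hasDerivAt_mul_log hm).comp u ((hasDerivAt_id u).const_sub 1)
  have := (a.add b).div_const 2
  refine HasDerivAt.congr_deriv (show HasDerivAt phi _ u from this) ?_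
  rw [artanh_eq h₁ h₂]; ring

lemma hasDerivAt_ent {u : ℝ} (h₁ : -1 < u) (h₂ : u < 1) :
    HasDerivAt ent (-artanh u) u := (hasDerivAt_phi h₁ h₂).const_sub (log 2)

lemma ent_strictAntiOn : StrictAntiOn ent (Icc 0 1) := by
  apply strictAntiOn_of_hasDerivWithinAt_neg (f' := fun x => -artanh x) (convex_Icc 0 1)
    continuous_ent.continuousOn
  · intro x hx
    rw [interior_Icc] at hx
    exact (hasDerivAt_ent (by linarith [hx.1]) hx.2).hasDerivWithinAt
  · intro x hx
    rw [interior_Icc] at hx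
    linarith [artanh_pos hx]

lemma ent_pos {u : ℝ} (h₁ : -1 < u) (h₂ : u < 1) : 0 < ent u := by
  rcases le_total 0 u with h | h
  · have := ent_strictAntiOn ⟨h, h₂.le⟩ ⟨zero_le_one, le_rfl⟩ h₂
    rwa [ent_one] at this
  · have := ent_strictAntiOn (a := -u) ⟨by linarith, by linarith⟩ ⟨zero_le_one, le_rfl⟩
      (by linarith)
    rw [ent_one, ent_neg] at this
    exact this

lemma ent_le_log_two {u : ℝ} (h₁ : -1 ≤ u) (h₂ : u ≤ 1) : ent u ≤ log 2 := by
  rcases le_total 0 u with h | h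
  · have := ent_strictAntiOn.antitoneOn ⟨le_rfl, zero_le_one⟩ ⟨h, h₂⟩ h
    rwa [ent_zero] at this
  · have := ent_strictAntiOn.antitoneOn (b := -u) ⟨le_rfl, zero_le_one⟩
      ⟨by linarith, by linarith⟩ (by linarith)
    rwa [ent_zero, ent_neg] at this

lemma phi_nonneg {u : ℝ} (h₁ : -1 ≤ u) (h₂ : u ≤ 1) : 0 ≤ phi u := by
  have := ent_le_log_two h₁ h₂; unfold ent at this; linarith

lemma exists_ent_eq {H : ℝ} (h₀ : 0 ≤ H) (h₁ : H ≤ log 2) : ∃ s ∈ Icc (0 : ℝ) 1, ent s = H := by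
  have := intermediate_value_Icc' zero_le_one continuous_ent.continuousOn
  rw [ent_zero, ent_one] at this
  exact this ⟨h₀, h₁⟩

lemma entInv_mem {H : ℝ} (h₀ : 0 < H) (h₁ : H ≤ log 2) : entInv H ∈ Ico (0 : ℝ) 1 := by
  have hex := exists_ent_eq h₀.le h₁
  refine ⟨(Function.invFunOn_mem hex).1, ?_⟩
  rcases (Function.invFunOn_mem hex).2.lt_or_eq with h | h
  · exact h
  · have e := Function.invFunOn_eq hex
    rw [h, ent_one] at e
    linarith

lemma ent_entInv {H : ℝ} (h₀ : 0 ≤ H) (h₁ : H ≤ log 2) : ent (entInv H) = H :=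
  Function.invFunOn_eq (exists_ent_eq h₀ h₁)

lemma entInv_ent {s : ℝ} (h₀ : 0 ≤ s) (h₁ : s ≤ 1) : entInv (ent s) = s :=
  ent_strictAntiOn.injOn.leftInvOn_invFunOn ⟨h₀, h₁⟩

lemma curve_eq_zero {H : ℝ} (h : log 2 ≤ H) : curve H = 0 := if_pos h

lemma curve_ent {s : ℝ} (h₀ : 0 ≤ s) (h₁ : s < 1) : curve (ent s) = s * artanh s := by
  unfold curve
  rcases h₀.lt_or_eq with h | h
  · have : ent s < log 2 := by
      have := ent_strictAntiOn ⟨le_rfl, zero_le_one⟩ ⟨h₀, h₁.le⟩ h
      rwa [ent_zero] at this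
    rw [if_neg (not_le.2 this), entInv_ent h₀ h₁.le]
  · subst h; simp [ent_zero]

lemma exists_curve_eq {H : ℝ} (h₀ : 0 < H) (h₁ : H ≤ log 2) :
    ∃ s ∈ Ico (0 : ℝ) 1, ent s = H ∧ curve H = s * artanh s := by
  refine ⟨entInv H, entInv_mem h₀ h₁, ent_entInv h₀.le h₁, ?_⟩
  conv_lhs => rw [← ent_entInv h₀.le h₁]
  exact curve_ent (entInv_mem h₀ h₁).1 (entInv_mem h₀ h₁).2

lemma curve_nonneg {H : ℝ} (h₀ : 0 < H) : 0 ≤ curve H := by
  by_cases h : log 2 ≤ H
  · rw [curve_eq_zero h]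
  · obtain ⟨s, hs, -, e⟩ := exists_curve_eq h₀ (not_le.1 h).le
    rw [e]; exact mul_nonneg hs.1 (artanh_nonneg hs.1)

lemma curve_antitoneOn : AntitoneOn curve (Ioi 0) := by
  intro x hx y hy hxy
  by_cases h : log 2 ≤ y
  · rw [curve_eq_zero h]; exact curve_nonneg hx
  · have hy' := (not_le.1 h).le
    obtain ⟨s, hs, es, e⟩ := exists_curve_eq hy hy'
    obtain ⟨r, hr, er, e'⟩ := exists_curve_eq hx (hxy.trans hy')
    rw [e, e']
    have : s ≤ r := by
      by_contra hc
      have := ent_strictAntiOn ⟨hr.1, hr.2.le⟩ ⟨hs.1, hs.2.le⟩ (not_le.1 hc)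
      linarith
    exact mul_le_mul this (artanh_le_artanh (by linarith [hs.1]) hr.2 this)
      (artanh_nonneg hs.1) hr.1

/-- `x ≤ artanh x` and `artanh x ≤ x / (1 - x ^ 2)`. -/
lemma le_artanh {x : ℝ} (h₀ : 0 ≤ x) (h₁ : x < 1) : x ≤ artanh x := by
  have key : MonotoneOn (fun t => artanh t - t) (Ico 0 1) := by
    apply monotoneOn_of_hasDerivWithinAt_nonneg (f' := fun t => 1 / (1 - t ^ 2) - 1) (convex_Ico 0 1)
    · intro t ht
      exact ((hasDerivAt_artanh' (by linarith [ht.1]) ht.2).sub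
        (hasDerivAt_id t)).continuousAt.continuousWithinAt
    · intro t ht
      rw [interior_Ico] at ht
      exact ((hasDerivAt_artanh' (by linarith [ht.1]) ht.2).sub (hasDerivAt_id t)).hasDerivWithinAt
    · intro t ht
      rw [interior_Ico] at ht
      have := one_sub_sq_pos (by linarith [ht.1]) ht.2
      rw [sub_nonneg, le_div_iff₀ this]
      nlinarith
  have := key ⟨le_rfl, zero_lt_one⟩ ⟨h₀, h₁⟩ h₀
  simp at this
  linarith

lemma artanh_mul_one_sub_sq_le {x : ℝ} (h₀ : 0 ≤ x) (h₁ : x < 1) :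
    (1 - x ^ 2) * artanh x ≤ x := by
  have hd : ∀ t ∈ Ico (0 : ℝ) 1,
      HasDerivAt (fun t => t - (1 - t ^ 2) * artanh t)
        (1 - (-(2 * t) * artanh t + (1 - t ^ 2) * (1 / (1 - t ^ 2)))) t := by
    intro t ht
    have a : HasDerivAt (fun t : ℝ => 1 - t ^ 2) (-(2 * t)) t := by
      simpa using ((hasDerivAt_pow 2 t).const_sub 1)
    exact (hasDerivAt_id t).sub (a.mul (hasDerivAt_artanh' (by linarith [ht.1]) ht.2))
  have key : MonotoneOn (fun t => t - (1 - t ^ 2) * artanh t) (Ico 0 1) := by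
    apply monotoneOn_of_hasDerivWithinAt_nonneg (convex_Ico 0 1)
      (fun t ht => (hd t ht).continuousAt.continuousWithinAt)
      (fun t ht => (hd t (interior_subset ht)).hasDerivWithinAt)
    intro t ht
    rw [interior_Ico] at ht
    rw [mul_one_div, div_self (one_sub_sq_pos (by linarith [ht.1]) ht.2).ne']
    nlinarith [artanh_nonneg ht.1.le, ht.1]
  have := key ⟨le_rfl, zero_lt_one⟩ ⟨h₀, h₁⟩ h₀
  simp at this
  linarith

lemma kap_zero : kap 0 = 2 := if_pos rfl

lemma kap_of_pos {s : ℝ} (h : 0 < s) : kap s = 1 + s / ((1 - s ^ 2) * artanh s) := if_neg h.ne'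

lemma two_le_kap {s : ℝ} (h₀ : 0 ≤ s) (h₁ : s < 1) : 2 ≤ kap s := by
  rcases h₀.lt_or_eq with h | h
  · rw [kap_of_pos h]
    have hp : 0 < (1 - s ^ 2) * artanh s :=
      mul_pos (one_sub_sq_pos (by linarith) h₁) (artanh_pos ⟨h, h₁⟩)
    have : 1 ≤ s / ((1 - s ^ 2) * artanh s) := by
      rw [le_div_iff₀ hp, one_mul]; exact artanh_mul_one_sub_sq_le h₀ h₁
    linarith
  · subst h; rw [kap_zero]

lemma hasDerivAt_kap_aux {s : ℝ} (h₀ : 0 < s) (h₁ : s < 1) :
    HasDerivAt (fun s => 1 + s / ((1 - s ^ 2) * artanh s))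
      (((1 + s ^ 2) * artanh s - s) / ((1 - s ^ 2) * artanh s) ^ 2) s := by
  have hq := one_sub_sq_pos (by linarith) h₁
  have hA := artanh_pos ⟨h₀, h₁⟩
  have a : HasDerivAt (fun t : ℝ => 1 - t ^ 2) (-(2 * s)) s := by
    simpa using ((hasDerivAt_pow 2 s).const_sub 1)
  have b := a.mul (hasDerivAt_artanh' (by linarith) h₁)
  have := ((hasDerivAt_id s).div b (mul_pos hq hA).ne').const_add 1
  refine this.congr_deriv ?_
  simp only [Pi.mul_apply, id_eq]
  congr 1
  field_simp
  ring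

lemma kap_monotoneOn : MonotoneOn kap (Ico 0 1) := by
  intro x hx y hy hxy
  rcases hx.1.lt_or_eq with h | h
  · have key : MonotoneOn (fun s => 1 + s / ((1 - s ^ 2) * artanh s)) (Ioo 0 1) := by
      apply monotoneOn_of_hasDerivWithinAt_nonneg (convex_Ioo 0 1)
        (fun t ht => (hasDerivAt_kap_aux ht.1 ht.2).continuousAt.continuousWithinAt)
        (fun t ht => (hasDerivAt_kap_aux (interior_subset ht).1
          (interior_subset ht).2).hasDerivWithinAt)
      intro t ht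
      rw [interior_Ioo] at ht
      apply div_nonneg _ (sq_nonneg _)
      nlinarith [le_artanh ht.1.le ht.2, artanh_nonneg ht.1.le]
    have hy0 : 0 < y := h.trans_le hxy
    rw [kap_of_pos h, kap_of_pos hy0]
    exact key ⟨h, hx.2⟩ ⟨hy0, hy.2⟩ hxy
  · subst h; rw [kap_zero]; exact two_le_kap hy.1 hy.2

/-- Tangent lines of the dictator curve: the key inequality in the parameter. -/
lemma curve_tangent_param {r s : ℝ} (hr : r ∈ Ico (0 : ℝ) 1) (hs : s ∈ Ico (0 : ℝ) 1) :
    s * artanh s + kap s * ent s ≤ r * artanh r + kap s * ent r := by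
  set F := fun t => t * artanh t + kap s * ent t with hF
  have hd : ∀ t ∈ Ico (0 : ℝ) 1,
      HasDerivAt F (artanh t + t / (1 - t ^ 2) - kap s * artanh t) t := by
    intro t ht
    have := ((hasDerivAt_id t).mul (hasDerivAt_artanh' (by linarith [ht.1]) ht.2)).add
      ((hasDerivAt_ent (by linarith [ht.1]) ht.2).const_mul (kap s))
    refine this.congr_deriv ?_
    simp only [id_eq]; ring
  have heq : ∀ t ∈ Ioo (0 : ℝ) 1,
      artanh t + t / (1 - t ^ 2) - kap s * artanh t = artanh t * (kap t - kap s) := by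
    intro t ht
    have hq := one_sub_sq_pos (by linarith [ht.1]) ht.2
    have hA := artanh_pos ht
    rw [kap_of_pos ht.1]
    field_simp
  change F s ≤ F r
  rcases le_total r s with h | h
  · have key : AntitoneOn F (Icc 0 s) := by
      apply antitoneOn_of_hasDerivWithinAt_nonpos (convex_Icc 0 s)
        (fun t ht => (hd t ⟨ht.1, ht.2.trans_lt hs.2⟩).continuousAt.continuousWithinAt)
        (fun t ht => (hd t ⟨(interior_subset ht).1,
          (interior_subset ht).2.trans_lt hs.2⟩).hasDerivWithinAt)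
      intro t ht
      rw [interior_Icc] at ht
      have ht1 : t < 1 := ht.2.trans hs.2
      rw [heq t ⟨ht.1, ht1⟩]
      exact mul_nonpos_of_nonneg_of_nonpos (artanh_nonneg ht.1.le)
        (sub_nonpos.2 (kap_monotoneOn ⟨ht.1.le, ht1⟩ hs ht.2.le))
    exact key ⟨hr.1, h⟩ ⟨hs.1, le_rfl⟩ h
  · have key : MonotoneOn F (Ico s 1) := by
      apply monotoneOn_of_hasDerivWithinAt_nonneg (convex_Ico s 1)
        (fun t ht => (hd t ⟨hs.1.trans ht.1, ht.2⟩).continuousAt.continuousWithinAt)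
        (fun t ht => (hd t ⟨hs.1.trans (interior_subset ht).1,
          (interior_subset ht).2⟩).hasDerivWithinAt)
      intro t ht
      rw [interior_Ico] at ht
      have ht0 : 0 < t := hs.1.trans_lt ht.1
      rw [heq t ⟨ht0, ht.2⟩]
      exact mul_nonneg (artanh_nonneg ht0.le)
        (sub_nonneg.2 (kap_monotoneOn hs ⟨ht0.le, ht.2⟩ ht.1.le))
    exact key ⟨le_rfl, hs.2⟩ ⟨h, hr.2⟩ h

/-- Tangent lines of the dictator curve. -/
lemma curve_tangent {H s : ℝ} (hH : 0 < H) (hs : s ∈ Ico (0 : ℝ) 1) :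
    s * artanh s - kap s * (H - ent s) ≤ curve H := by
  by_cases h : log 2 ≤ H
  · rw [curve_eq_zero h]
    have h1 := curve_tangent_param (r := 0) ⟨le_rfl, zero_lt_one⟩ hs
    simp [ent_zero] at h1
    nlinarith [mul_le_mul_of_nonneg_left h (le_trans zero_le_two (two_le_kap hs.1 hs.2))]
  · obtain ⟨r, hr, er, e⟩ := exists_curve_eq hH (not_le.1 h).le
    rw [e, ← er]
    have := curve_tangent_param hr hs
    linarith

lemma curve_convexOn : ConvexOn ℝ (Ioi 0) curve := by
  refine ⟨convex_Ioi 0, fun x hx y hy a b ha hb hab => ?_⟩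
  simp only [smul_eq_mul]
  have hz : 0 < a * x + b * y := convex_Ioi (0 : ℝ) hx hy ha hb hab
  by_cases h : log 2 ≤ a * x + b * y
  · rw [curve_eq_zero h]
    exact add_nonneg (mul_nonneg ha (curve_nonneg hx)) (mul_nonneg hb (curve_nonneg hy))
  · obtain ⟨s, hs, es, e⟩ := exists_curve_eq hz (not_le.1 h).le
    have h1 := mul_le_mul_of_nonneg_left (curve_tangent hx hs) ha
    have h2 := mul_le_mul_of_nonneg_left (curve_tangent hy hs) hb
    have hb' : b = 1 - a := by linarith
    rw [e]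
    subst hb'
    rw [es] at h1 h2
    nlinarith

lemma nfun_eq {s : ℝ} (h₁ : -1 < s) (h₂ : s < 1) : nfun s = ent s + s * artanh s := by
  have e : log (1 - s ^ 2) = log (1 + s) + log (1 - s) := by
    rw [← log_mul (by linarith) (by linarith)]; congr 1; ring
  unfold nfun ent phi
  rw [artanh_eq h₁ h₂, e]; ring

lemma half_le_nfun {s : ℝ} (h₁ : -1 < s) (h₂ : s < 1) : 1 / 2 ≤ nfun s := by
  have hq := one_sub_sq_pos h₁ h₂
  have : log (1 - s ^ 2) ≤ 0 := log_nonpos hq.le (by nlinarith)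
  have := Real.log_two_gt_d9
  unfold nfun; linarith

lemma hasDerivAt_nfun {s : ℝ} (h₁ : -1 < s) (h₂ : s < 1) :
    HasDerivAt nfun (s / (1 - s ^ 2)) s := by
  have a : HasDerivAt (fun t : ℝ => 1 - t ^ 2) (-(2 * s)) s := by
    simpa using ((hasDerivAt_pow 2 s).const_sub 1)
  have hq := one_sub_sq_pos h₁ h₂
  have := ((a.log hq.ne').div_const 2).const_sub (log 2)
  refine this.congr_deriv ?_
  field_simp

lemma hasDerivAt_lamFun {s : ℝ} (h₁ : -1 < s) (h₂ : s < 1) :
    HasDerivAt lamFun ((2 * s * nfun s - s ^ 3) / ((1 - s ^ 2) * nfun s) ^ 2) s := by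
  have a : HasDerivAt (fun t : ℝ => 1 - t ^ 2) (-(2 * s)) s := by
    simpa using ((hasDerivAt_pow 2 s).const_sub 1)
  have hq := one_sub_sq_pos h₁ h₂
  have hN : 0 < nfun s := by linarith [half_le_nfun h₁ h₂]
  have := (hasDerivAt_pow 2 s).div (a.mul (hasDerivAt_nfun h₁ h₂)) (mul_pos hq hN).ne'
  refine this.congr_deriv ?_
  simp only [Pi.mul_apply]
  congr 1
  field_simp
  ring

lemma lamFun_monotoneOn : MonotoneOn lamFun (Ico 0 1) := by
  have hc : ∀ t ∈ Ico (0 : ℝ) 1, -1 < t := fun t ht => by linarith [ht.1]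
  apply monotoneOn_of_hasDerivWithinAt_nonneg (convex_Ico 0 1)
    (fun t ht => (hasDerivAt_lamFun (hc t ht) ht.2).continuousAt.continuousWithinAt)
    (fun t ht => (hasDerivAt_lamFun (hc t (interior_subset ht))
      (interior_subset ht).2).hasDerivWithinAt)
  intro t ht
  rw [interior_Ico] at ht
  apply div_nonneg _ (sq_nonneg _)
  have := half_le_nfun (show -1 < t by linarith [ht.1]) ht.2
  nlinarith [mul_le_mul_of_nonneg_left this ht.1.le, mul_nonneg ht.1.le (one_sub_sq_pos (hc t ⟨ht.1.le, ht.2⟩) ht.2).le]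

lemma lamFun_nonneg {s : ℝ} (h₁ : -1 < s) (h₂ : s < 1) : 0 ≤ lamFun s :=
  div_nonneg (sq_nonneg _) (mul_nonneg (one_sub_sq_pos h₁ h₂).le
    (by linarith [half_le_nfun h₁ h₂]))

lemma exists_rat_eq {x : ℝ} (hx : 0 < x) : ∃ s ∈ Ioo (0 : ℝ) 1, ent s / s = x := by
  set a := min (1 / 2) (ent (1 / 2) / x) with ha
  have he : 0 < ent (1 / 2 : ℝ) := ent_pos (by norm_num) (by norm_num)
  have ha0 : 0 < a := lt_min (by norm_num) (div_pos he hx)
  have ha1 : a ≤ 1 / 2 := min_le_left _ _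
  have hc : ContinuousOn (fun s => ent s / s) (Icc a 1) :=
    continuous_ent.continuousOn.div continuousOn_id fun t ht => (ha0.trans_le ht.1).ne'
  have hlo : x ≤ ent a / a := by
    rw [le_div_iff₀ ha0]
    have h1 : x * a ≤ ent (1 / 2 : ℝ) := by
      calc x * a ≤ x * (ent (1 / 2) / x) := mul_le_mul_of_nonneg_left (min_le_right _ _) hx.le
        _ = _ := by field_simp
    exact h1.trans (ent_strictAntiOn.antitoneOn ⟨ha0.le, by linarith⟩ (by norm_num) ha1)
  have := intermediate_value_Icc' (show a ≤ 1 by linarith) hc (show x ∈ Icc (ent 1 / 1) (ent a / a)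
    from ⟨by simp [ent_one, hx.le], hlo⟩)
  obtain ⟨s, hs, e⟩ := this
  refine ⟨s, ⟨ha0.trans_le hs.1, ?_⟩, e⟩
  rcases hs.2.lt_or_eq with h | h
  · exact h
  · subst h; simp [ent_one] at e; linarith

lemma rat_strictAntiOn : StrictAntiOn (fun s => ent s / s) (Ioo 0 1) := by
  intro x hx y hy hxy
  have h1 := ent_strictAntiOn ⟨hx.1.le, hx.2.le⟩ ⟨hy.1.le, hy.2.le⟩ hxy
  have h2 := ent_pos (show -1 < y by linarith [hy.1]) hy.2
  simp only
  rw [div_lt_div_iff₀ hy.1 hx.1]
  nlinarith [hx.1]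

lemma ratInv_mem {x : ℝ} (hx : 0 < x) : ratInv x ∈ Ioo (0 : ℝ) 1 :=
  Function.invFunOn_mem (exists_rat_eq hx)

lemma rat_ratInv {x : ℝ} (hx : 0 < x) : ent (ratInv x) / ratInv x = x :=
  Function.invFunOn_eq (f := fun s => ent s / s) (exists_rat_eq hx)

lemma ratInv_rat {s : ℝ} (hs : s ∈ Ioo (0 : ℝ) 1) : ratInv (ent s / s) = s :=
  rat_strictAntiOn.injOn.leftInvOn_invFunOn hs

/-- Tangent lines of the antisymmetric-pair curve, in the parameter. -/
lemma pair_tangent_param {r s : ℝ} (hr : r ∈ Ioo (0 : ℝ) 1) (hs : s ∈ Ioo (0 : ℝ) 1) :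
    artanh s + lamFun s * (ent s / s) ≤ artanh r + lamFun s * (ent r / r) := by
  set F := fun t => artanh t + lamFun s * (ent t / t) with hF
  have hd : ∀ t ∈ Ioo (0 : ℝ) 1,
      HasDerivAt F (nfun t / t ^ 2 * (lamFun t - lamFun s)) t := by
    intro t ht
    have h1 : -1 < t := by linarith [ht.1]
    have := (hasDerivAt_artanh' h1 ht.2).add
      (((hasDerivAt_ent h1 ht.2).div (hasDerivAt_id t) ht.1.ne').const_mul (lamFun s))
    refine this.congr_deriv ?_
    simp only [id_eq]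
    have hq := one_sub_sq_pos h1 ht.2
    have hN : 0 < nfun t := by linarith [half_le_nfun h1 ht.2]
    have := ht.1
    rw [show lamFun t = t ^ 2 / ((1 - t ^ 2) * nfun t) from rfl]
    field_simp
    rw [nfun_eq h1 ht.2]
    ring
  change F s ≤ F r
  rcases le_total r s with h | h
  · have key : AntitoneOn F (Ioc 0 s) := by
      apply antitoneOn_of_hasDerivWithinAt_nonpos (convex_Ioc 0 s)
        (fun t ht => (hd t ⟨ht.1, ht.2.trans_lt hs.2⟩).continuousAt.continuousWithinAt)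
        (fun t ht => (hd t ⟨(interior_subset ht).1,
          (interior_subset ht).2.trans_lt hs.2⟩).hasDerivWithinAt)
      intro t ht
      rw [interior_Ioc] at ht
      have ht1 : t < 1 := ht.2.trans hs.2
      have hN := half_le_nfun (show -1 < t by linarith [ht.1]) ht1
      exact mul_nonpos_of_nonneg_of_nonpos (div_nonneg (by linarith) (sq_nonneg _))
        (sub_nonpos.2 (lamFun_monotoneOn ⟨ht.1.le, ht1⟩ ⟨hs.1.le, hs.2⟩ ht.2.le))
    exact key ⟨hr.1, h⟩ ⟨hs.1, le_rfl⟩ h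
  · have key : MonotoneOn F (Ico s 1) := by
      apply monotoneOn_of_hasDerivWithinAt_nonneg (convex_Ico s 1)
        (fun t ht => (hd t ⟨hs.1.trans_le ht.1, ht.2⟩).continuousAt.continuousWithinAt)
        (fun t ht => (hd t ⟨hs.1.trans_le (interior_subset ht).1,
          (interior_subset ht).2⟩).hasDerivWithinAt)
      intro t ht
      rw [interior_Ico] at ht
      have ht0 : 0 < t := hs.1.trans ht.1
      have hN := half_le_nfun (show -1 < t by linarith) ht.2
      exact mul_nonneg (div_nonneg (by linarith) (sq_nonneg _))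
        (sub_nonneg.2 (lamFun_monotoneOn ⟨hs.1.le, hs.2⟩ ⟨ht0.le, ht.2⟩ ht.1.le))
    exact key ⟨le_rfl, hs.2⟩ ⟨h, hr.2⟩ h

lemma pairBound_of_pos {d H : ℝ} (hd : 0 < d) : pairBound d H = d * artanh (ratInv (H / d)) := by
  rw [pairBound, if_neg hd.ne', abs_of_pos hd]

lemma pairBound_zero (H : ℝ) : pairBound 0 H = 0 := if_pos rfl

/-- Tangent lines of `pairBound`. -/
lemma pairBound_tangent {d H s : ℝ} (hd : 0 ≤ d) (hH : 0 < H) (hs : s ∈ Ioo (0 : ℝ) 1) :
    (artanh s + lamFun s * (ent s / s)) * d - lamFun s * H ≤ pairBound d H := by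
  rcases hd.lt_or_eq with h | h
  · have hr := ratInv_mem (div_pos hH h)
    have := mul_le_mul_of_nonneg_left (pair_tangent_param hr hs) h.le
    rw [rat_ratInv (div_pos hH h)] at this
    rw [pairBound_of_pos h]
    have e : d * (lamFun s * (H / d)) = lamFun s * H := by field_simp
    nlinarith
  · subst h
    rw [pairBound_zero]
    have := lamFun_nonneg (show -1 < s by linarith [hs.1]) hs.2
    nlinarith

end Vale.Agent.P322
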