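import Vale.Agent.P322.Interface

/-!
The pointwise certificate behind `meanBound`: in the coordinates `u = sinh 2t`, `q = exp (-2v)`,
with `a = tanh (v + t)`, `b = tanh (v - t)`, the defect times `cosh 2v + cosh 2t` is convex for
`0 < q ≤ 1`, vanishes to first order at the base point, and only grows under `q ↦ 1 / q`.
-/

namespace Vale.Agent.P322.Mean

open Real Set

/-- `cosh 2t` as a function of `sinh 2t` -/
noncomputable def rad (u : ℝ) : ℝ := √(1 + u ^ 2)

/-- `1 + z = 2 q S` -/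
noncomputable def opz (u q : ℝ) : ℝ := 1 + (2 * rad u * q + q ^ 2)

/-- the main convex function -/
noncomputable def gfun (u q : ℝ) : ℝ :=
  opz u q * log (opz u q) / (2 * q) - rad u * log q - q * log q + u * arsinh u

/-- its derivative in `u` -/
noncomputable def gu (u q : ℝ) : ℝ :=
  u / rad u * (log (opz u q) - log q + 2) + arsinh u

/-- its derivative in `q` -/
noncomputable def gq (u q : ℝ) : ℝ :=
  -(1 - q ^ 2) / (2 * q ^ 2) * log (opz u q) - log q

/-- the second derivative in `u` -/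
noncomputable def guu (u q : ℝ) : ℝ :=
  (log (opz u q) - log q + 2) / rad u ^ 3 + 1 / rad u + 2 * q * u ^ 2 / (rad u ^ 2 * opz u q)

/-- the mixed derivative -/
noncomputable def guq (u q : ℝ) : ℝ := -(u * (1 - q ^ 2)) / (rad u * q * opz u q)

/-- the second derivative in `q` -/
noncomputable def gqq (u q : ℝ) : ℝ :=
  (log (opz u q) - (1 + q ^ 2) / 2 + (1 - q ^ 2) ^ 2 / (2 * opz u q)) / q ^ 3

/-- the defect times `S` -/
noncomputable def ffun (lam σ ν κ u q : ℝ) : ℝ :=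
  lam / 2 * gfun u q + (1 / 2 - lam) * (u * arsinh u) - (σ + ν) * rad u - σ * q
    - ν * ((1 / q + q) / 2) + κ * u

/-- its derivative in `u` -/
noncomputable def fu (lam σ ν κ u q : ℝ) : ℝ :=
  lam / 2 * gu u q + (1 / 2 - lam) * (arsinh u + u / rad u) - (σ + ν) * (u / rad u) + κ

/-- its derivative in `q` -/
noncomputable def fq (lam σ ν u q : ℝ) : ℝ :=
  lam / 2 * gq u q - σ - ν * ((1 - 1 / q ^ 2) / 2)

lemma rad_pos (u : ℝ) : 0 < rad u := sqrt_pos.2 (by positivity)

lemma rad_sq (u : ℝ) : rad u ^ 2 = 1 + u ^ 2 := sq_sqrt (by positivity)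

lemma one_le_rad (u : ℝ) : 1 ≤ rad u := one_le_sqrt.2 (by nlinarith [sq_nonneg u])

lemma opz_pos (u : ℝ) {q : ℝ} (hq : 0 < q) : 0 < opz u q := by
  have := rad_pos u; unfold opz; positivity

lemma one_le_opz (u : ℝ) {q : ℝ} (hq : 0 < q) : 1 ≤ opz u q := by
  have := rad_pos u; unfold opz; exact le_add_of_nonneg_right (by positivity)

/-- The polynomial inequality behind convexity. -/
lemma det_poly {Q p : ℝ} (hQ : 0 ≤ Q) (hp : 0 ≤ p) (hp1 : p ≤ 1) (h4 : 4 * p ≤ Q ^ 2) :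
    Q * (1 - p) ^ 2 ≤
      (2 * (Q + p) ^ 2 / (2 + (Q + p)) + Q * (1 - p) - 2 * p) * (1 + p + 2 * Q) := by
  have hd : 0 < 2 + (Q + p) := by linarith
  have e : 2 * (Q + p) ^ 2 / (2 + (Q + p)) + Q * (1 - p) - 2 * p =
      (Q ^ 2 * (3 - p) + Q * (2 - p) * (1 + p) - 4 * p) / (2 + (Q + p)) := by
    field_simp; ring
  rw [e, div_mul_eq_mul_div, le_div_iff₀ hd]
  have hB : Q * ((2 - p) * (Q + 1 + p)) ≤ Q ^ 2 * (3 - p) + Q * (2 - p) * (1 + p) - 4 * p := by
    linarith
  refine le_trans ?_ (mul_le_mul_of_nonneg_right hB (by linarith))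
  have key : (1 - p) ^ 2 * (2 + (Q + p)) ≤ (2 - p) * (Q + 1 + p) * (1 + p + 2 * Q) := by
    have h2 : 0 ≤ 6 * p - 2 * p ^ 3 := by nlinarith [mul_le_of_le_one_right hp hp1]
    have h3 : (1 - p) ^ 2 * Q ≤ 1 * Q :=
      mul_le_mul_of_nonneg_right (pow_le_one₀ (by linarith) (by linarith)) hQ
    have h4' : 1 * Q ≤ 3 * ((2 - p) * (1 + p)) * Q := by
      refine mul_le_mul_of_nonneg_right ?_ hQ
      nlinarith
    have h5 : 0 ≤ 2 * (2 - p) * Q ^ 2 := mul_nonneg (by linarith) (sq_nonneg Q)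
    linarith
  have := mul_le_mul_of_nonneg_left key hQ
  linarith

lemma hessian_nonneg (u : ℝ) {q : ℝ} (hq : 0 < q) (hq1 : q ≤ 1) (x y : ℝ) :
    0 ≤ guu u q * x ^ 2 + 2 * guq u q * x * y + gqq u q * y ^ 2 := by
  have hr := rad_pos u
  have hr2 := rad_sq u
  have hz := opz_pos u hq
  have hL : 0 ≤ log (opz u q) := log_nonneg (one_le_opz u hq)
  have hlq : log q ≤ 0 := log_nonpos hq.le hq1
  set Z := opz u q with hZ
  set Q := 2 * rad u * q with hQdef
  have hQ : 0 < Q := by positivity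
  have h4 : 4 * q ^ 2 ≤ Q ^ 2 := by
    rw [hQdef]; nlinarith [mul_nonneg (sq_nonneg u) (sq_nonneg q)]
  have hZe : Z = 1 + (Q + q ^ 2) := rfl
  set N := 2 * Z * (log Z - (1 + q ^ 2) / 2 + (1 - q ^ 2) ^ 2 / (2 * Z)) with hN
  have hN' : N = 2 * Z * log Z - Q * (1 + q ^ 2) - 4 * q ^ 2 := by
    rw [hN]; field_simp; rw [hZe]; ring
  have hlog : 2 * (Q + q ^ 2) / ((Q + q ^ 2) + 2) ≤ log Z := by
    rw [hZe]; exact le_log_one_add_of_nonneg (by positivity)
  have hlow : 2 * (Q + q ^ 2) ^ 2 / (2 + (Q + q ^ 2)) + Q * (1 - q ^ 2) - 2 * q ^ 2 ≤ N := by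
    have h1 := mul_le_mul_of_nonneg_left hlog (show (0 : ℝ) ≤ 2 * Z by linarith)
    have e : 2 * Z * (2 * (Q + q ^ 2) / ((Q + q ^ 2) + 2)) =
        2 * (Q + q ^ 2) + 2 * (Q + q ^ 2) ^ 2 / (2 + (Q + q ^ 2)) := by
      rw [hZe]; field_simp; ring
    rw [hN']
    linarith
  have hpos : 0 ≤ N * (1 + q ^ 2 + 2 * Q) - Q * (1 - q ^ 2) ^ 2 := by
    have hd := det_poly hQ.le (sq_nonneg q) (pow_le_one₀ hq.le hq1) h4
    nlinarith [mul_le_mul_of_nonneg_right hlow (show (0 : ℝ) ≤ 1 + q ^ 2 + 2 * Q by positivity)]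
  have hN0 : 0 ≤ N := by
    refine nonneg_of_mul_nonneg_left (b := 1 + q ^ 2 + 2 * Q) ?_ (by positivity)
    nlinarith [mul_nonneg hQ.le (sq_nonneg (1 - q ^ 2))]
  set A := guu u q with hA
  set B := guq u q with hB
  set C := gqq u q with hC
  have hC' : C = N / (2 * Z * q ^ 3) := by
    rw [hC, hN, gqq, ← hZ]; field_simp
  have hC0 : 0 ≤ C := by rw [hC']; positivity
  set c := u ^ 2 / rad u ^ 2 with hc
  have hc1 : c ≤ 1 := by rw [hc, div_le_one (by positivity)]; linarith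
  have hA' : c * ((Z + Q) / (rad u * Z)) ≤ A := by
    have e1 : c * ((Z + Q) / (rad u * Z)) = c * (1 / rad u) + 2 * q * u ^ 2 / (rad u ^ 2 * Z) := by
      rw [hc, hQdef]; field_simp
    have e2 : 0 ≤ (log Z - log q + 2) / rad u ^ 3 := div_nonneg (by linarith) (by positivity)
    have e3 : c * (1 / rad u) ≤ 1 / rad u := mul_le_of_le_one_left (by positivity) hc1
    rw [e1, hA, guu, ← hZ]
    linarith
  have hA0 : 0 ≤ A := le_trans (by positivity) hA'
  have hdet : B ^ 2 ≤ A * C := by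
    refine le_trans ?_ (mul_le_mul_of_nonneg_right hA' hC0)
    have e : c * ((Z + Q) / (rad u * Z)) * C - B ^ 2 =
        c / (2 * rad u * Z ^ 2 * q ^ 3) * (N * (Z + Q) - Q * (1 - q ^ 2) ^ 2) := by
      rw [hC', hc, hB, guq, ← hZ, hQdef]; field_simp
      try ring
    have : 0 ≤ c / (2 * rad u * Z ^ 2 * q ^ 3) * (N * (Z + Q) - Q * (1 - q ^ 2) ^ 2) := by
      refine mul_nonneg (by positivity) ?_
      rw [hZe, show 1 + (Q + q ^ 2) + Q = 1 + q ^ 2 + 2 * Q by ring]
      exact hpos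
    linarith
  rcases hA0.eq_or_lt with h | h
  · have hB0 : B = 0 := by
      have : B ^ 2 ≤ 0 := by rw [← h] at hdet; linarith
      exact pow_eq_zero_iff two_ne_zero |>.1 (le_antisymm this (sq_nonneg B))
    rw [← h, hB0]; nlinarith [mul_nonneg hC0 (sq_nonneg y)]
  · refine nonneg_of_mul_nonneg_right (a := A) ?_ h
    nlinarith [sq_nonneg (A * x + B * y), mul_nonneg (sub_nonneg.2 hdet) (sq_nonneg y)]

section line

variable {uf qf : ℝ → ℝ} {x y s : ℝ}

lemma hasDerivAt_rad (hu : HasDerivAt uf x s) :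
    HasDerivAt (fun s => rad (uf s)) (uf s / rad (uf s) * x) s := by
  have h := ((hu.pow 2).const_add 1).sqrt (show 1 + uf s ^ 2 ≠ 0 by positivity)
  refine h.congr_deriv ?_
  have := rad_pos (uf s)
  simp only [Pi.pow_apply, Nat.cast_ofNat]
  rw [show √(1 + uf s ^ 2) = rad (uf s) from rfl]
  field_simp
  ring

lemma hasDerivAt_div_rad (hu : HasDerivAt uf x s) :
    HasDerivAt (fun s => uf s / rad (uf s)) (x / rad (uf s) ^ 3) s := by
  refine (hu.div (hasDerivAt_rad hu) (rad_pos _).ne').congr_deriv ?_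
  have := rad_pos (uf s)
  field_simp
  rw [rad_sq]; ring

lemma hasDerivAt_arsinh_comp (hu : HasDerivAt uf x s) :
    HasDerivAt (fun s => arsinh (uf s)) (x / rad (uf s)) s := by
  refine ((hasDerivAt_arsinh (uf s)).comp s hu).congr_deriv ?_
  rw [rad, div_eq_inv_mul]

lemma hasDerivAt_log_opz (hu : HasDerivAt uf x s) (hq : HasDerivAt qf y s) (h0 : 0 < qf s) :
    HasDerivAt (fun s => log (opz (uf s) (qf s)))
      ((2 * qf s * (uf s / rad (uf s)) * x + 2 * (rad (uf s) + qf s) * y) / opz (uf s) (qf s)) s := by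
  have h := ((((hasDerivAt_rad hu).const_mul 2).mul hq).add (hq.pow 2)).const_add 1
  refine (h.log (opz_pos _ h0).ne').congr_deriv ?_
  unfold opz
  simp only [Pi.add_apply, Pi.mul_apply, Pi.pow_apply]
  congr 1
  simp
  ring

lemma hasDerivAt_gfun (hu : HasDerivAt uf x s) (hq : HasDerivAt qf y s) (h0 : 0 < qf s) :
    HasDerivAt (fun s => gfun (uf s) (qf s))
      (gu (uf s) (qf s) * x + gq (uf s) (qf s) * y) s := by
  have hr := hasDerivAt_rad hu
  have hz := (((hr.const_mul 2).mul hq).add (hq.pow 2)).const_add 1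
  have hl := hasDerivAt_log_opz hu hq h0
  have hlq := hq.log h0.ne'
  have h := ((((hz.mul hl).div (hq.const_mul 2) (by positivity)).sub (hr.mul hlq)).sub
    (hq.mul hlq)).add (hu.mul (hasDerivAt_arsinh_comp hu))
  refine HasDerivAt.congr_deriv (show HasDerivAt (fun s => gfun (uf s) (qf s)) _ s from h) ?_
  have := rad_pos (uf s)
  have := opz_pos (uf s) h0
  simp only [gu, gq, opz, Pi.add_apply, Pi.mul_apply, Pi.pow_apply, Nat.cast_ofNat] at this ⊢
  field_simp
  ring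

lemma hasDerivAt_gu (hu : HasDerivAt uf x s) (hq : HasDerivAt qf y s) (h0 : 0 < qf s) :
    HasDerivAt (fun s => gu (uf s) (qf s))
      (guu (uf s) (qf s) * x + guq (uf s) (qf s) * y) s := by
  have h := ((hasDerivAt_div_rad hu).mul
    (((hasDerivAt_log_opz hu hq h0).sub (hq.log h0.ne')).add_const 2)).add
      (hasDerivAt_arsinh_comp hu)
  refine HasDerivAt.congr_deriv (show HasDerivAt (fun s => gu (uf s) (qf s)) _ s from h) ?_
  have := rad_pos (uf s)
  have := opz_pos (uf s) h0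
  simp only [guu, guq, Pi.sub_apply, Pi.mul_apply]
  field_simp
  simp only [opz]
  ring

lemma hasDerivAt_gq (hu : HasDerivAt uf x s) (hq : HasDerivAt qf y s) (h0 : 0 < qf s) :
    HasDerivAt (fun s => gq (uf s) (qf s))
      (guq (uf s) (qf s) * x + gqq (uf s) (qf s) * y) s := by
  have hne : 2 * qf s ^ 2 ≠ 0 := by positivity
  have h := (((((hq.pow 2).const_sub 1).neg).div ((hq.pow 2).const_mul 2) hne).mul
    (hasDerivAt_log_opz hu hq h0)).sub (hq.log h0.ne')
  refine HasDerivAt.congr_deriv (show HasDerivAt (fun s => gq (uf s) (qf s)) _ s from h) ?_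
  have := rad_pos (uf s)
  have := opz_pos (uf s) h0
  simp only [gqq, guq, Pi.div_apply, Pi.neg_apply, Pi.pow_apply, Nat.cast_ofNat]
  field_simp
  simp only [opz]
  ring

end line

/-- Convexity: a critical point is a minimum on `q ≤ 1`. -/
lemma ffun_mono {lam σ ν κ u₀ q₀ u q : ℝ} (hl0 : 0 ≤ lam) (hl : lam ≤ 1 / 2) (hσ : σ + ν ≤ 0)
    (hν : ν ≤ 0) (hq₀ : 0 < q₀) (hq₀' : q₀ ≤ 1) (hq : 0 < q) (hq' : q ≤ 1)
    (h1 : fu lam σ ν κ u₀ q₀ = 0) (h2 : fq lam σ ν u₀ q₀ = 0) :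
    ffun lam σ ν κ u₀ q₀ ≤ ffun lam σ ν κ u q := by
  set x := u - u₀ with hx
  set y := q - q₀ with hy
  set uf := fun s : ℝ => u₀ + s * x with huf
  set qf := fun s : ℝ => q₀ + s * y with hqf
  have hU : ∀ s, HasDerivAt uf x s := fun s => by
    simpa [huf] using ((hasDerivAt_id' s).mul_const x).const_add u₀
  have hV : ∀ s, HasDerivAt qf y s := fun s => by
    simpa [hqf] using ((hasDerivAt_id' s).mul_const y).const_add q₀
  have hpos : ∀ s ∈ Icc (0 : ℝ) 1, 0 < qf s ∧ qf s ≤ 1 := by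
    intro s hs
    have e : qf s = (1 - s) * q₀ + s * q := by simp only [hqf, hy]; ring
    rw [e]
    constructor
    · rcases hs.1.lt_or_eq with h | h
      · exact add_pos_of_nonneg_of_pos (mul_nonneg (by linarith [hs.2]) hq₀.le) (mul_pos h hq)
      · subst h; linarith
    · nlinarith [hs.1, hs.2]
  set g' := fun s => fu lam σ ν κ (uf s) (qf s) * x + fq lam σ ν (uf s) (qf s) * y with hg'
  have hd : ∀ s ∈ Icc (0 : ℝ) 1, HasDerivAt (fun s => ffun lam σ ν κ (uf s) (qf s)) (g' s) s := by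
    intro s hs
    obtain ⟨h0, -⟩ := hpos s hs
    have h := (((((hasDerivAt_gfun (hU s) (hV s) h0).const_mul (lam / 2)).add
      (((hU s).mul (hasDerivAt_arsinh_comp (hU s))).const_mul (1 / 2 - lam))).sub
        ((hasDerivAt_rad (hU s)).const_mul (σ + ν))).sub ((hV s).const_mul σ)).sub
          (((((hV s).inv h0.ne').add (hV s)).div_const 2).const_mul ν) |>.add ((hU s).const_mul κ)
    refine HasDerivAt.congr_deriv (h.congr_of_eventuallyEq (Filter.Eventually.of_forall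
      fun s => ?_)) ?_
    · simp only [ffun, one_div]; rfl
    · have := rad_pos (uf s)
      simp only [hg', fu, fq]
      field_simp
      ring
  have hd' : ∀ s ∈ Icc (0 : ℝ) 1, HasDerivAt g'
      (lam / 2 * (guu (uf s) (qf s) * x ^ 2 + 2 * guq (uf s) (qf s) * x * y
          + gqq (uf s) (qf s) * y ^ 2)
        + (1 / 2 - lam) * (1 / rad (uf s) + 1 / rad (uf s) ^ 3) * x ^ 2
        - (σ + ν) / rad (uf s) ^ 3 * x ^ 2 - ν / qf s ^ 3 * y ^ 2) s := by
    intro s hs
    obtain ⟨h0, -⟩ := hpos s hs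
    have a := ((((hasDerivAt_gu (hU s) (hV s) h0).const_mul (lam / 2)).add
      (((hasDerivAt_arsinh_comp (hU s)).add (hasDerivAt_div_rad (hU s))).const_mul (1 / 2 - lam))).sub
        ((hasDerivAt_div_rad (hU s)).const_mul (σ + ν))).add_const κ
    have b := (((hasDerivAt_gq (hU s) (hV s) h0).const_mul (lam / 2)).sub_const σ).sub
      ((((((hV s).pow 2).inv (pow_ne_zero 2 h0.ne')).const_sub 1).div_const 2).const_mul ν)
    have h := (a.mul_const x).add (b.mul_const y)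
    refine HasDerivAt.congr_deriv (h.congr_of_eventuallyEq (Filter.Eventually.of_forall
      fun s => ?_)) ?_
    · simp only [hg', fu, fq, one_div]; rfl
    · have := rad_pos (uf s)
      simp only [Pi.pow_apply, Nat.cast_ofNat]
      field_simp
      ring
  have m1 : MonotoneOn g' (Icc 0 1) := by
    apply monotoneOn_of_hasDerivWithinAt_nonneg (convex_Icc 0 1)
      (fun s hs => (hd' s hs).continuousAt.continuousWithinAt)
      (fun s hs => (hd' s (interior_subset hs)).hasDerivWithinAt)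
    intro s hs
    obtain ⟨h0, h0'⟩ := hpos s (interior_subset hs)
    have := rad_pos (uf s)
    have e1 := mul_nonneg (by linarith : (0 : ℝ) ≤ lam / 2) (hessian_nonneg (uf s) h0 h0' x y)
    have e2 : 0 ≤ (1 / 2 - lam) * (1 / rad (uf s) + 1 / rad (uf s) ^ 3) * x ^ 2 :=
      mul_nonneg (mul_nonneg (by linarith) (by positivity)) (sq_nonneg _)
    have e3 : (σ + ν) / rad (uf s) ^ 3 * x ^ 2 ≤ 0 := mul_nonpos_of_nonpos_of_nonneg
      (div_nonpos_of_nonpos_of_nonneg hσ (by positivity)) (sq_nonneg _)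
    have e4 : ν / qf s ^ 3 * y ^ 2 ≤ 0 := mul_nonpos_of_nonpos_of_nonneg
      (div_nonpos_of_nonpos_of_nonneg hν (by positivity)) (sq_nonneg _)
    linarith
  have m2 : MonotoneOn (fun s => ffun lam σ ν κ (uf s) (qf s)) (Icc 0 1) := by
    apply monotoneOn_of_hasDerivWithinAt_nonneg (convex_Icc 0 1)
      (fun s hs => (hd s hs).continuousAt.continuousWithinAt)
      (fun s hs => (hd s (interior_subset hs)).hasDerivWithinAt)
    intro s hs
    have := m1 ⟨le_rfl, zero_le_one⟩ (interior_subset hs) (interior_subset hs).1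
    simpa [hg', huf, hqf, h1, h2] using this
  have := m2 ⟨le_rfl, zero_le_one⟩ ⟨zero_le_one, le_rfl⟩ zero_le_one
  simpa [huf, hqf, hx, hy] using this

lemma ffun_inv (lam σ ν κ u : ℝ) {q : ℝ} (hq : 0 < q) :
    ffun lam σ ν κ u q = ffun lam σ ν κ u q⁻¹ + σ * (1 / q - q) := by
  have e : opz u q⁻¹ = opz u q / q ^ 2 := by unfold opz; field_simp; ring
  have hz := opz_pos u hq
  unfold ffun gfun
  rw [e, log_div hz.ne' (by positivity), log_pow, log_inv]
  simp only [opz]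
  push_cast
  field_simp
  ring

lemma exists_coord {a b : ℝ} (ha : |a| < 1) (hb : |b| < 1) :
    ∃ p q : ℝ, 0 < p ∧ 0 < q ∧ a = (p - q) / (p + q) ∧ b = (1 - p * q) / (1 + p * q) := by
  rw [abs_lt] at ha hb
  have h1 : 0 < 1 - a := by linarith
  have h2 : 0 < 1 + a := by linarith
  have h3 : 0 < 1 - b := by linarith
  have h4 : 0 < 1 + b := by linarith
  set q := √((1 - a) / (1 + a) * ((1 - b) / (1 + b))) with hq
  have hq0 : 0 < q := sqrt_pos.2 (by positivity)
  have e : (1 + a) / (1 - a) * q * q = (1 - b) / (1 + b) := by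
    rw [mul_assoc, hq, mul_self_sqrt (by positivity)]; field_simp
  refine ⟨(1 + a) / (1 - a) * q, q, by positivity, hq0, ?_, ?_⟩
  · field_simp; ring
  · rw [e]; field_simp; ring

lemma logs {p q : ℝ} (hp : 0 < p) (hq : 0 < q) :
    log (1 + (p - q) / (p + q)) = log 2 + log p - log (p + q) ∧
    log (1 - (p - q) / (p + q)) = log 2 + log q - log (p + q) ∧
    log (1 + (1 - p * q) / (1 + p * q)) = log 2 - log (1 + p * q) ∧
    log (1 - (1 - p * q) / (1 + p * q)) = log 2 + log p + log q - log (1 + p * q) := by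
  have h2 : (2 : ℝ) ≠ 0 := two_ne_zero
  have s1 : p + q ≠ 0 := by positivity
  have s2 : 1 + p * q ≠ 0 := by positivity
  refine ⟨?_, ?_, ?_, ?_⟩
  · rw [← log_mul h2 hp.ne', ← log_div (by positivity) s1]; congr 1; field_simp; ring
  · rw [← log_mul h2 hq.ne', ← log_div (by positivity) s1]; congr 1; field_simp; ring
  · rw [← log_div h2 s2]; congr 1; field_simp; ring
  · rw [← log_mul h2 hp.ne', ← log_mul (by positivity) hq.ne', ← log_div (by positivity) s2]
    congr 1; field_simp; ring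

lemma coord_mem {p q : ℝ} (hp : 0 < p) (hq : 0 < q) :
    |(p - q) / (p + q)| < 1 ∧ |(1 - p * q) / (1 + p * q)| < 1 := by
  have hpq : 0 < p * q := by positivity
  simp only [abs_lt]
  refine ⟨⟨?_, ?_⟩, ⟨?_, ?_⟩⟩
  all_goals first
    | (rw [lt_div_iff₀ (by positivity)]; linarith)
    | (rw [div_lt_iff₀ (by positivity)]; linarith)

lemma coord_u {p : ℝ} (hp : 0 < p) :
    rad ((p - 1 / p) / 2) = (p + 1 / p) / 2 ∧ arsinh ((p - 1 / p) / 2) = log p := by
  have e : rad ((p - 1 / p) / 2) = (p + 1 / p) / 2 := by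
    rw [rad, show 1 + ((p - 1 / p) / 2) ^ 2 = ((p + 1 / p) / 2) ^ 2 by field_simp; ring,
      sqrt_sq (by positivity)]
  refine ⟨e, ?_⟩
  rw [arsinh, show √(1 + ((p - 1 / p) / 2) ^ 2) = rad ((p - 1 / p) / 2) from rfl, e]
  congr 1; ring

lemma coord_opz {p q : ℝ} (hp : 0 < p) (hq : 0 < q) :
    opz ((p - 1 / p) / 2) q = (p + q) * (1 + p * q) / p ∧
      log (opz ((p - 1 / p) / 2) q) = log (p + q) + log (1 + p * q) - log p := by
  have e : opz ((p - 1 / p) / 2) q = (p + q) * (1 + p * q) / p := by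
    rw [opz, (coord_u hp).1]; field_simp; ring
  refine ⟨e, ?_⟩
  rw [e, log_div (by positivity) hp.ne', log_mul (by positivity) (by positivity)]

/-- The defect in the new coordinates. -/
lemma ffun_coord {p q : ℝ} (hp : 0 < p) (hq : 0 < q) (lam α β ν a b : ℝ)
    (ha : a = (p - q) / (p + q)) (hb : b = (1 - p * q) / (1 + p * q)) :
    (ker a b + lam * ((ent a + ent b) / 2) - α * ((1 - a) / 2) - β * ((1 - b) / 2) - ν) *
        ((p + q) * (1 + p * q) / (2 * p * q)) =
      ffun lam ((α + β) / 2) ν ((α - β) / 2) ((p - 1 / p) / 2) q := by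
  obtain ⟨l1, l2, l3, l4⟩ := logs hp hq
  obtain ⟨m1, m2⟩ := coord_mem hp hq
  rw [ha, hb]
  rw [ker, artanh_eq (abs_lt.1 m1).1 (abs_lt.1 m1).2, artanh_eq (abs_lt.1 m2).1 (abs_lt.1 m2).2]
  unfold ent phi ffun gfun
  rw [l1, l2, l3, l4, (coord_opz hp hq).2, (coord_opz hp hq).1, (coord_u hp).1, (coord_u hp).2]
  field_simp
  ring

/-- The value at the corner and the vanishing of the gradient at the base point. -/
lemma base_facts {p q : ℝ} (hp : 0 < p) (hq : 0 < q) (lam a b α β ν : ℝ)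
    (ha : a = (p - q) / (p + q)) (hb : b = (1 - p * q) / (1 + p * q))
    (hα : α = lam * artanh a - 2 * kerDeriv a b) (hβ : β = lam * artanh b - 2 * kerDeriv b a)
    (hν : ν = ker a b + lam * ((ent a + ent b) / 2)
      + (kerDeriv a b - lam * artanh a / 2) * (1 - a) + (kerDeriv b a - lam * artanh b / 2) * (1 - b)) :
    -log ((1 + a) * (1 + b) / 4) = log (opz ((p - 1 / p) / 2) q) ∧
    ν = lam * log (opz ((p - 1 / p) / 2) q) / 2 - (a - b) ^ 2 / (4 * ((1 + a) * (1 + b))) ∧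
    fu lam ((α + β) / 2) ν ((α - β) / 2) ((p - 1 / p) / 2) q = 0 ∧
    fq lam ((α + β) / 2) ν ((p - 1 / p) / 2) q = 0 := by
  obtain ⟨l1, l2, l3, l4⟩ := logs hp hq
  obtain ⟨m1, m2⟩ := coord_mem hp hq
  subst ha hb hα hβ hν
  have h4 : log (4 : ℝ) = log 2 + log 2 := by
    rw [← log_mul two_ne_zero two_ne_zero]; norm_num
  have n1 := abs_lt.1 m1
  have n2 := abs_lt.1 m2
  have d1 : 1 - ((p - q) / (p + q)) ^ 2 = 4 * p * q / (p + q) ^ 2 := by field_simp; ring
  have d2 : 1 - ((1 - p * q) / (1 + p * q)) ^ 2 = 4 * p * q / (1 + p * q) ^ 2 := by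
    field_simp; ring
  have e1 : 1 + (p - q) / (p + q) = 2 * p / (p + q) := by field_simp; ring
  have e2 : 1 + (1 - p * q) / (1 + p * q) = 2 / (1 + p * q) := by field_simp; ring
  refine ⟨?_, ?_, ?_, ?_⟩
  · rw [log_div (mul_ne_zero (by linarith) (by linarith)) (by norm_num),
      log_mul (by linarith) (by linarith), l1, l3, h4, (coord_opz hp hq).2]
    ring
  all_goals
    rw [ker, kerDeriv, kerDeriv, artanh_eq n1.1 n1.2, artanh_eq n2.1 n2.2, d1, d2]
    unfold ent phi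
    rw [l1, l2, l3, l4]
    first
      | (rw [(coord_opz hp hq).2, e1, e2]; field_simp; ring)
      | (unfold fu gu; rw [(coord_opz hp hq).2, (coord_u hp).1, (coord_u hp).2]; field_simp; ring)
      | (unfold fq gq; rw [(coord_opz hp hq).2]; field_simp; ring)

lemma sigma_nonpos {lam σ ν u q : ℝ} (hl : 0 ≤ lam) (hν : ν ≤ 0) (hq : 0 < q) (hq1 : q ≤ 1)
    (h : fq lam σ ν u q = 0) : σ ≤ 0 := by
  have h1 : 2 * log (1 + q) ≤ log (opz u q) := by
    have e : 2 * log (1 + q) = log ((1 + q) ^ 2) := by rw [log_pow]; norm_num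
    rw [e]
    apply log_le_log (by positivity)
    unfold opz
    nlinarith [one_le_rad u]
  have h2 := le_log_one_add_of_nonneg hq.le
  have h3 := one_sub_inv_le_log_of_pos hq
  have hq2 : 0 ≤ 1 - q ^ 2 := by nlinarith
  have h5 : q * (1 - q) ≤ 2 * q / (q + 2) * (1 - q ^ 2) := by
    rw [div_mul_eq_mul_div, le_div_iff₀ (by linarith)]
    nlinarith [mul_nonneg (mul_nonneg hq.le hq.le) (sub_nonneg.2 hq1)]
  have h6 : -(q ^ 2 * log q) ≤ q * (1 - q) := by
    have := mul_le_mul_of_nonneg_left h3 (sq_nonneg q)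
    rw [show q ^ 2 * (1 - q⁻¹) = -(q * (1 - q)) by field_simp; ring] at this
    linarith
  have h7 : -(q ^ 2 * log q) ≤ log (1 + q) * (1 - q ^ 2) :=
    h6.trans (h5.trans (mul_le_mul_of_nonneg_right h2 hq2))
  have h8 := mul_le_mul_of_nonneg_right h1 hq2
  have h9 : gq u q ≤ 0 := by
    have : gq u q = -((1 - q ^ 2) * log (opz u q) + 2 * (q ^ 2 * log q)) / (2 * q ^ 2) := by
      unfold gq; field_simp; ring
    rw [this]
    exact div_nonpos_of_nonpos_of_nonneg (by linarith) (by positivity)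
  have h10 : 0 ≤ ν * ((1 - 1 / q ^ 2) / 2) := by
    refine mul_nonneg_of_nonpos_of_nonpos hν (div_nonpos_of_nonpos_of_nonneg ?_ two_pos.le)
    rw [sub_nonpos, le_div_iff₀ (by positivity)]
    linarith
  have := mul_nonpos_of_nonneg_of_nonpos (by linarith : (0 : ℝ) ≤ lam / 2) h9
  unfold fq at h
  linarith

end Vale.Agent.P322.Mean

namespace Vale.Agent.P322

open Real Set Mean

/-- The pointwise certificate behind `meanBound`. -/
theorem meanCertificate : MeanCertificate := by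
  intro a₀ b₀ a b hb₀ hba ha₀ hsum ha hb
  obtain ⟨p₀, q₀, hp₀, hq₀, ea₀, eb₀⟩ :=
    exists_coord (abs_lt.2 ⟨by linarith, ha₀⟩) (abs_lt.2 ⟨hb₀, by linarith⟩)
  obtain ⟨p, q, hp, hq, ea, eb⟩ := exists_coord ha hb
  set lam := min (1 / 2) (cornerRatio a₀ b₀) with hlam
  set α := lam * artanh a₀ - 2 * kerDeriv a₀ b₀ with hα
  set β := lam * artanh b₀ - 2 * kerDeriv b₀ a₀ with hβ
  set ν := ker a₀ b₀ + lam * ((ent a₀ + ent b₀) / 2)
    + (kerDeriv a₀ b₀ - lam * artanh a₀ / 2) * (1 - a₀)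
    + (kerDeriv b₀ a₀ - lam * artanh b₀ / 2) * (1 - b₀) with hν
  obtain ⟨eL, eν, hfu, hfq⟩ := base_facts hp₀ hq₀ lam a₀ b₀ α β ν ea₀ eb₀ hα hβ hν
  have hP : 0 < (1 + a₀) * (1 + b₀) := mul_pos (by linarith) (by linarith)
  have hLc : 0 < -log ((1 + a₀) * (1 + b₀) / 4) := by
    rw [neg_pos]; apply log_neg (by positivity); rw [div_lt_one four_pos]; nlinarith
  have hcr : 0 ≤ cornerRatio a₀ b₀ := by unfold cornerRatio; positivity
  have hl0 : 0 ≤ lam := le_min (by norm_num) hcr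
  have hl1 : lam ≤ 1 / 2 := min_le_left _ _
  have hν0 : ν ≤ 0 := by
    have h := min_le_right (1 / 2) (cornerRatio a₀ b₀)
    rw [← hlam, cornerRatio, le_div_iff₀ (by positivity), eL] at h
    rw [eν, sub_nonpos, le_div_iff₀ (by positivity)]
    linarith
  have hq₀1 : q₀ ≤ 1 := by
    by_contra hc
    push Not at hc
    have e : a₀ + b₀ = 2 * p₀ * (1 - q₀ ^ 2) / ((p₀ + q₀) * (1 + p₀ * q₀)) := by
      rw [ea₀, eb₀]; field_simp; ring
    have : 2 * p₀ * (1 - q₀ ^ 2) / ((p₀ + q₀) * (1 + p₀ * q₀)) < 0 := by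
      refine div_neg_of_neg_of_pos (mul_neg_of_pos_of_neg (by positivity) ?_) (by positivity)
      nlinarith
    linarith
  have hσ := sigma_nonpos hl0 hν0 hq₀ hq₀1 hfq
  set κ := (α - β) / 2
  set σ := (α + β) / 2
  have e0 : ffun lam σ ν κ ((p₀ - 1 / p₀) / 2) q₀ = 0 := by
    rw [← ffun_coord hp₀ hq₀ lam α β ν a₀ b₀ ea₀ eb₀, mul_eq_zero]
    left; rw [hν, hα, hβ]; ring
  have hmain : 0 ≤ ffun lam σ ν κ ((p - 1 / p) / 2) q := by
    have hmin : ∀ {q : ℝ}, 0 < q → q ≤ 1 → 0 ≤ ffun lam σ ν κ ((p - 1 / p) / 2) q :=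
      fun h h' => e0.symm.le.trans
        (ffun_mono hl0 hl1 (by linarith) hν0 hq₀ hq₀1 h h' hfu hfq)
    rcases le_total q 1 with h | h
    · exact hmin hq h
    · rw [ffun_inv _ _ _ _ _ hq]
      refine add_nonneg (hmin (inv_pos.2 hq) (inv_le_one_of_one_le₀ h))
        (mul_nonneg_of_nonpos_of_nonpos hσ ?_)
      rw [sub_nonpos, div_le_iff₀ hq]
      nlinarith
  rw [← ffun_coord hp hq lam α β ν a b ea eb] at hmain
  have := nonneg_of_mul_nonneg_left hmain (by positivity)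
  rw [hν, hα, hβ] at this
  simp only [bregPhi]
  simp only [ent] at this
  linarith

end Vale.Agent.P322
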