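import Vale.Agent.P322.PairCert
import Vale.Agent.P322.MeanCert

/-!
The bridge from the scalar two-point inequality to the induction step: both pointwise certificates
are averaged over the family, the two induction hypotheses are combined by convexity of `curve`,
and the symmetries `(a, b) ↦ (b, a)` and `(a, b) ↦ (-b, -a)` reduce to the ordering used in
`ScalarTwoPoint`.
-/

namespace Vale.Agent.P322

open Real Set Finset

variable {ι : Type} [Fintype ι] [Nonempty ι]

/-- average over a finite family -/
noncomputable def famAvg {ι : Type} [Fintype ι] (f : ι → ℝ) : ℝ := (∑ i, f i) / (Fintype.card ι : ℝ)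

lemma famAvg_const (r : ℝ) : famAvg (fun _ : ι => r) = r := by
  have : (Fintype.card ι : ℝ) ≠ 0 := Nat.cast_ne_zero.2 Fintype.card_ne_zero
  rw [famAvg, Finset.sum_const, Finset.card_univ, nsmul_eq_mul]
  field_simp

omit [Nonempty ι] in
lemma famAvg_le {f g : ι → ℝ} (h : ∀ i, f i ≤ g i) : famAvg f ≤ famAvg g :=
  div_le_div_of_nonneg_right (Finset.sum_le_sum fun i _ => h i) (Nat.cast_nonneg _)

lemma famAvg_lt {f g : ι → ℝ} (h : ∀ i, f i < g i) : famAvg f < famAvg g :=
  div_lt_div_of_pos_right (Finset.sum_lt_sum_of_nonempty Finset.univ_nonempty fun i _ => h i)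
    (Nat.cast_pos.2 Fintype.card_pos)

omit [Nonempty ι] in
lemma famAvg_add (f g : ι → ℝ) : famAvg (fun i => f i + g i) = famAvg f + famAvg g := by
  rw [famAvg, Finset.sum_add_distrib, add_div]; rfl

omit [Nonempty ι] in
lemma famAvg_smul (r : ℝ) (f : ι → ℝ) : famAvg (fun i => r * f i) = r * famAvg f := by
  rw [famAvg, ← Finset.mul_sum, mul_div_assoc]; rfl

omit [Nonempty ι] in
lemma famAvg_neg (f : ι → ℝ) : famAvg (fun i => -f i) = -famAvg f := by
  rw [famAvg, Finset.sum_neg_distrib, neg_div]; rfl

lemma famAvg_mem {f : ι → ℝ} (hf : ∀ i, |f i| < 1) : -1 < famAvg f ∧ famAvg f < 1 := by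
  refine ⟨?_, ?_⟩
  · have := famAvg_lt fun i => (abs_lt.1 (hf i)).1
    rwa [famAvg_const] at this
  · have := famAvg_lt fun i => (abs_lt.1 (hf i)).2
    rwa [famAvg_const] at this

lemma famAvg_ent_pos {f : ι → ℝ} (hf : ∀ i, |f i| < 1) : 0 < famAvg fun i => ent (f i) := by
  have := famAvg_lt (f := fun _ : ι => (0 : ℝ)) fun i => ent_pos (abs_lt.1 (hf i)).1 (abs_lt.1 (hf i)).2
  rwa [famAvg_const] at this

lemma artanh_sub_nonneg {a b : ℝ} (hb : -1 < b) (ha : a < 1) (h : b ≤ a) :
    0 ≤ artanh a - artanh b := sub_nonneg.2 (artanh_le_artanh hb ha h)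

lemma ker_nonneg_of_lt_one {a b : ℝ} (ha : |a| < 1) (hb : |b| < 1) : 0 ≤ ker a b := by
  rw [abs_lt] at ha hb
  unfold ker
  rcases le_total b a with h | h
  · exact div_nonneg (mul_nonneg (sub_nonneg.2 h) (artanh_sub_nonneg hb.1 ha.2 h)) (by norm_num)
  · refine div_nonneg (mul_nonneg_of_nonpos_of_nonpos (sub_nonpos.2 h) ?_) (by norm_num)
    linarith [artanh_sub_nonneg ha.1 hb.2 h]

/-- `ent` lies below its tangents. -/
lemma ent_le_tangent {x c : ℝ} (hx : |x| < 1) (hc : |c| < 1) :
    ent x ≤ ent c - artanh c * (x - c) := by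
  rw [abs_lt] at hx hc
  have hd : ∀ t ∈ Ioo (-1 : ℝ) 1,
      HasDerivAt (fun t => ent t + artanh c * t) (-artanh t + artanh c * 1) t := fun t ht =>
    (hasDerivAt_ent ht.1 ht.2).add ((hasDerivAt_id t).const_mul _)
  rcases le_total x c with h | h
  · have key : MonotoneOn (fun t => ent t + artanh c * t) (Ioc (-1) c) := by
      apply monotoneOn_of_hasDerivWithinAt_nonneg (convex_Ioc _ _)
        (fun t ht => (hd t ⟨ht.1, ht.2.trans_lt hc.2⟩).continuousAt.continuousWithinAt)
        (fun t ht => (hd t ⟨(interior_subset ht).1,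
          (interior_subset ht).2.trans_lt hc.2⟩).hasDerivWithinAt)
      intro t ht
      rw [interior_Ioc] at ht
      linarith [artanh_le_artanh ht.1 hc.2 ht.2.le]
    have := key ⟨hx.1, h⟩ ⟨hc.1, le_rfl⟩ h
    simp only at this
    linarith
  · have key : AntitoneOn (fun t => ent t + artanh c * t) (Ico c 1) := by
      apply antitoneOn_of_hasDerivWithinAt_nonpos (convex_Ico _ _)
        (fun t ht => (hd t ⟨hc.1.trans_le ht.1, ht.2⟩).continuousAt.continuousWithinAt)
        (fun t ht => (hd t ⟨hc.1.trans_le (interior_subset ht).1,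
          (interior_subset ht).2⟩).hasDerivWithinAt)
      intro t ht
      rw [interior_Ico] at ht
      linarith [artanh_le_artanh hc.1 ht.2 ht.1.le]
    have := key ⟨le_rfl, hc.2⟩ ⟨h, hx.2⟩ h
    simp only at this
    linarith

lemma famAvg_ent_le {f : ι → ℝ} (hf : ∀ i, |f i| < 1) :
    famAvg (fun i => ent (f i)) ≤ ent (famAvg f) := by
  set c := famAvg f with hc
  have hc1 : |c| < 1 := abs_lt.2 (famAvg_mem hf)
  refine (famAvg_le fun i => ent_le_tangent (hf i) hc1).trans (le_of_eq ?_)
  rw [show (fun i => ent c - artanh c * (f i - c)) = fun i => (ent c + artanh c * c) + -artanh c * f i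
    from funext fun i => by ring, famAvg_add, famAvg_const, famAvg_smul, ← hc]
  ring

/-- Averaging the antisymmetric-pair certificate. -/
lemma pairBound_le_avg (hp : PairCertificate) {a b : ι → ℝ} (ha : ∀ i, |a i| < 1)
    (hb : ∀ i, |b i| < 1) (hle : famAvg b ≤ famAvg a) :
    pairBound ((famAvg a - famAvg b) / 2)
        ((famAvg (fun i => ent (a i)) + famAvg (fun i => ent (b i))) / 2) ≤
      famAvg fun i => ker (a i) (b i) := by
  set d := (famAvg a - famAvg b) / 2 with hd
  set H := (famAvg (fun i => ent (a i)) + famAvg (fun i => ent (b i))) / 2 with hH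
  have hHpos : 0 < H := by linarith [famAvg_ent_pos ha, famAvg_ent_pos hb]
  rcases (show 0 ≤ d by linarith).lt_or_eq with hd0 | hd0
  · have hx : 0 < H / d := div_pos hHpos hd0
    set s := ratInv (H / d) with hs
    have hs01 : s ∈ Ioo (0 : ℝ) 1 := ratInv_mem hx
    have hlam : 0 ≤ lamFun s := lamFun_nonneg (by linarith [hs01.1]) hs01.2
    set C := artanh s + lamFun s * (ent s / s) with hC
    have hC0 : 0 ≤ C := by
      have h1 := artanh_nonneg hs01.1.le
      have h2 : 0 ≤ ent s / s := by rw [hs, rat_ratInv hx]; exact hx.le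
      positivity
    have h1 : famAvg (fun i => C / 2 * (a i - b i) + -lamFun s / 2 * (ent (a i) + ent (b i))) ≤
        famAvg fun i => ker (a i) (b i) := by
      refine famAvg_le fun i => le_trans ?_ (hp (a i) (b i) s (ha i) (hb i) hs01)
      have := mul_le_mul_of_nonneg_left (le_abs_self (a i - b i)) hC0
      linarith
    rw [famAvg_add, famAvg_smul, famAvg_smul, famAvg_add,
      show (fun i => a i - b i) = fun i => a i + -b i from funext fun i => sub_eq_add_neg _ _,
      famAvg_add, famAvg_neg] at h1
    rw [pairBound_of_pos hd0, ← hs]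
    have e : C * d = d * artanh s + lamFun s * H := by
      have := rat_ratInv hx
      rw [← hs] at this
      rw [hC, this]
      field_simp
    have e2 : C * d = C / 2 * (famAvg a - famAvg b) := by rw [hd]; ring
    have e3 : lamFun s * H = lamFun s / 2 * (famAvg (fun i => ent (a i)) + famAvg fun i => ent (b i)) := by
      rw [hH]; ring
    linarith
  · rw [← hd0, pairBound_zero]
    have := famAvg_le (f := fun _ : ι => (0 : ℝ)) fun i => ker_nonneg_of_lt_one (ha i) (hb i)
    rwa [famAvg_const] at this

/-- Averaging the certificate around the means. -/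
lemma meanBound_le_avg (hm : MeanCertificate) {a b : ι → ℝ} (ha : ∀ i, |a i| < 1)
    (hb : ∀ i, |b i| < 1) (hle : famAvg b ≤ famAvg a) (hsum : 0 ≤ famAvg a + famAvg b) :
    meanBound (famAvg a) (famAvg b)
        ((famAvg (fun i => ent (a i)) + famAvg (fun i => ent (b i))) / 2) ≤
      famAvg fun i => ker (a i) (b i) := by
  set A := famAvg a with hA
  set B := famAvg b with hB
  set l := min (1 / 2) (cornerRatio A B) with hl
  set p := kerDeriv A B - l / 2 * artanh A with hp
  set q := kerDeriv B A - l / 2 * artanh B with hq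
  have h1 : famAvg (fun i => (ker A B + l / 2 * (ent A + ent B) - p * A - q * B) + p * a i
      + q * b i + -(l / 2) * (ent (a i) + ent (b i))) ≤ famAvg fun i => ker (a i) (b i) := by
    refine famAvg_le fun i => le_trans (le_of_eq ?_) (hm A B (a i) (b i) (famAvg_mem hb).1 hle
      (famAvg_mem ha).2 hsum (ha i) (hb i))
    rw [hp, hq, hl]
    simp only [bregPhi, ent]
    ring
  rw [famAvg_add, famAvg_add, famAvg_add, famAvg_const, famAvg_smul, famAvg_smul, famAvg_smul,
    famAvg_add, ← hA, ← hB] at h1
  rw [meanBound, ← hl]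
  refine le_trans (le_of_eq ?_) h1
  ring

/-- Convexity of the dictator curve combines the two induction hypotheses. -/
lemma avgBound_le {A B Ha Hb : ℝ} (hA : |A| < 1) (hB : |B| < 1) (ha : 0 < Ha) (hb : 0 < Hb) :
    avgBound A B ((Ha + Hb) / 2) ≤ (gMax A Ha + gMax B Hb) / 2 := by
  rw [abs_lt] at hA hB
  refine max_le ?_ ?_
  · have hpa := phi_nonneg hA.1.le hA.2.le
    have hpb := phi_nonneg hB.1.le hB.2.le
    have h := curve_convexOn.2 (show Ha + phi A ∈ Ioi (0 : ℝ) from (by linarith : 0 < Ha + phi A))
      (show Hb + phi B ∈ Ioi (0 : ℝ) from (by linarith : 0 < Hb + phi B))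
      (show (0 : ℝ) ≤ 1 / 2 by norm_num) (show (0 : ℝ) ≤ 1 / 2 by norm_num) (by norm_num)
    simp only [smul_eq_mul] at h
    rw [show 1 / 2 * (Ha + phi A) + 1 / 2 * (Hb + phi B) = (Ha + Hb) / 2 + (phi A + phi B) / 2
      by ring] at h
    have l1 : curve (Ha + phi A) ≤ gMax A Ha := le_max_left _ _
    have l2 : curve (Hb + phi B) ≤ gMax B Hb := le_max_left _ _
    linarith
  · set x := 1 - A ^ 2 with hx
    set y := 1 - B ^ 2 with hy
    have hx0 : 0 < x := one_sub_sq_pos hA.1 hA.2
    have hy0 : 0 < y := one_sub_sq_pos hB.1 hB.2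
    have hs : 0 < x + y := by linarith
    have h := curve_convexOn.2 (show Ha / x ∈ Ioi (0 : ℝ) from div_pos ha hx0)
      (show Hb / y ∈ Ioi (0 : ℝ) from div_pos hb hy0) (show 0 ≤ x / (x + y) by positivity)
      (show 0 ≤ y / (x + y) by positivity) (by field_simp)
    simp only [smul_eq_mul] at h
    have e : x / (x + y) * (Ha / x) + y / (x + y) * (Hb / y) = (Ha + Hb) / 2 / ((x + y) / 2) := by
      field_simp
    rw [e] at h
    have h' := mul_le_mul_of_nonneg_left h (show 0 ≤ (x + y) / 2 by linarith)
    have e' : (x + y) / 2 * (x / (x + y) * curve (Ha / x) + y / (x + y) * curve (Hb / y)) =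
        (x * curve (Ha / x) + y * curve (Hb / y)) / 2 := by field_simp
    rw [e'] at h'
    have l1 : x * curve (Ha / x) ≤ gMax A Ha := le_max_right _ _
    have l2 : y * curve (Hb / y) ≤ gMax B Hb := le_max_right _ _
    linarith

/-- The step for the ordering used in the scalar inequality. -/
lemma step_ordered (hs : ScalarTwoPoint) (hp : PairCertificate) (hm : MeanCertificate)
    {a b : ι → ℝ} (ha : ∀ i, |a i| < 1) (hb : ∀ i, |b i| < 1) (hle : famAvg b ≤ famAvg a)
    (hsum : 0 ≤ famAvg a + famAvg b) :
    gMax ((famAvg a + famAvg b) / 2)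
        ((famAvg (fun i => ent (a i)) + famAvg (fun i => ent (b i))) / 2) ≤
      (famAvg fun i => ker (a i) (b i)) + gMax (famAvg a) (famAvg fun i => ent (a i)) / 2
        + gMax (famAvg b) (famAvg fun i => ent (b i)) / 2 := by
  have hA := famAvg_mem ha
  have hB := famAvg_mem hb
  have hHa := famAvg_ent_pos ha
  have hHb := famAvg_ent_pos hb
  have h := hs (famAvg a) (famAvg b)
    ((famAvg (fun i => ent (a i)) + famAvg (fun i => ent (b i))) / 2) hle hA.2 hB.1 hsum
    (by linarith) (by linarith [famAvg_ent_le ha, famAvg_ent_le hb])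
  have h1 := max_le (meanBound_le_avg hm ha hb hle hsum) (pairBound_le_avg hp ha hb hle)
  have h2 := avgBound_le (abs_lt.2 hA) (abs_lt.2 hB) hHa hHb
  linarith

lemma gMax_neg (m H : ℝ) : gMax (-m) H = gMax m H := by
  simp [gMax, gOne, gTwo, phi_neg]

lemma ker_symm (a b : ℝ) : ker a b = ker b a := by unfold ker; ring

lemma ker_neg_neg {a b : ℝ} (ha : |a| < 1) (hb : |b| < 1) : ker (-a) (-b) = ker a b := by
  rw [abs_lt] at ha hb
  unfold ker
  rw [artanh_eq (x := -a) (by linarith [ha.2]) (by linarith [ha.1]),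
    artanh_eq (x := -b) (by linarith [hb.2]) (by linarith [hb.1]), artanh_eq ha.1 ha.2,
    artanh_eq hb.1 hb.2, ← sub_eq_add_neg 1 a, ← sub_eq_add_neg 1 b, sub_neg_eq_add, sub_neg_eq_add]
  ring_nf

/-- The step, for `famAvg b ≤ famAvg a`. -/
lemma step_le (hs : ScalarTwoPoint) (hp : PairCertificate) (hm : MeanCertificate)
    {a b : ι → ℝ} (ha : ∀ i, |a i| < 1) (hb : ∀ i, |b i| < 1) (hle : famAvg b ≤ famAvg a) :
    gMax ((famAvg a + famAvg b) / 2)
        ((famAvg (fun i => ent (a i)) + famAvg (fun i => ent (b i))) / 2) ≤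
      (famAvg fun i => ker (a i) (b i)) + gMax (famAvg a) (famAvg fun i => ent (a i)) / 2
        + gMax (famAvg b) (famAvg fun i => ent (b i)) / 2 := by
  rcases le_total 0 (famAvg a + famAvg b) with h | h
  · exact step_ordered hs hp hm ha hb hle h
  · have := step_ordered hs hp hm (a := fun i => -b i) (b := fun i => -a i)
      (fun i => by simpa using hb i) (fun i => by simpa using ha i)
      (by rw [famAvg_neg, famAvg_neg]; linarith) (by rw [famAvg_neg, famAvg_neg]; linarith)
    have e : (fun i => ker (-b i) (-a i)) = fun i => ker (a i) (b i) := funext fun i => by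
      rw [ker_neg_neg (hb i) (ha i), ker_symm]
    simp only [famAvg_neg, gMax_neg, ent_neg, e] at this
    rw [show (-famAvg b + -famAvg a) / 2 = -((famAvg a + famAvg b) / 2) by ring, gMax_neg,
      show ((famAvg fun i => ent (b i)) + famAvg fun i => ent (a i)) / 2 =
        ((famAvg fun i => ent (a i)) + famAvg fun i => ent (b i)) / 2 by ring] at this
    linarith

/-- The induction step follows from the scalar two-point inequality and the two certificates. -/
theorem stepInequality_of_scalar (hs : ScalarTwoPoint) (hp : PairCertificate)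
    (hm : MeanCertificate) : StepInequality := by
  intro ι _ _ a b ha hb c
  show gMax ((famAvg a + famAvg b) / 2)
        ((famAvg (fun i => ent (a i)) + famAvg (fun i => ent (b i))) / 2) ≤
      (famAvg fun i => ker (a i) (b i)) + gMax (famAvg a) (famAvg fun i => ent (a i)) / 2
        + gMax (famAvg b) (famAvg fun i => ent (b i)) / 2
  rcases le_total (famAvg b) (famAvg a) with h | h
  · exact step_le hs hp hm ha hb h
  · have := step_le hs hp hm hb ha h
    rw [show (fun i => ker (b i) (a i)) = fun i => ker (a i) (b i) from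
      funext fun i => ker_symm _ _, add_comm (famAvg b),
      add_comm (famAvg fun i => ent (b i))] at this
    linarith

/-- The induction step follows from the scalar two-point inequality. -/
theorem stepInequality_of_scalarTwoPoint (hs : ScalarTwoPoint) : StepInequality :=
  stepInequality_of_scalar hs pairCertificate meanCertificate

end Vale.Agent.P322
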