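import Mathlib

/-!
Basic functions for the Courtade-Kumar problem.
All logarithms are natural logarithms here.
-/

namespace Vale.Agent.P322

open Real Set

/-- the potential: half of `(1+u) log (1+u) + (1-u) log (1-u)` -/
noncomputable def phi (u : ℝ) : ℝ := ((1 + u) * log (1 + u) + (1 - u) * log (1 - u)) / 2

/-- the binary entropy (nats) of a sign with mean `u` -/
noncomputable def ent (u : ℝ) : ℝ := log 2 - phi u

/-- the two-point dissipation, a symmetrised divergence -/
noncomputable def ker (a b : ℝ) : ℝ := (a - b) * (artanh a - artanh b) / 4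

/-- inverse of `ent` on `[0,1]` -/
noncomputable def entInv (H : ℝ) : ℝ := Function.invFunOn ent (Icc 0 1) H

/-- the dictator curve, as a function of the conditional entropy -/
noncomputable def curve (H : ℝ) : ℝ :=
  if log 2 ≤ H then 0 else entInv H * artanh (entInv H)

/-- inverse of `s ↦ ent s / s` on `(0,1)` -/
noncomputable def ratInv (x : ℝ) : ℝ := Function.invFunOn (fun s => ent s / s) (Ioo 0 1) x

/-- the dissipation bound from antisymmetric pairs -/
noncomputable def pairBound (d H : ℝ) : ℝ :=
  if d = 0 then 0 else |d| * artanh (ratInv (H / |d|))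

/-- first strengthened induction hypothesis -/
noncomputable def gOne (m H : ℝ) : ℝ := curve (H + phi m)

/-- second strengthened induction hypothesis -/
noncomputable def gTwo (m H : ℝ) : ℝ := (1 - m ^ 2) * curve (H / (1 - m ^ 2))

/-- the strengthened induction hypothesis -/
noncomputable def gMax (m H : ℝ) : ℝ := max (gOne m H) (gTwo m H)

/-- corner ratio -/
noncomputable def cornerRatio (a b : ℝ) : ℝ :=
  (a - b) ^ 2 / (2 * ((1 + a) * (1 + b)) * -log ((1 + a) * (1 + b) / 4))

/-- the dissipation bound from perturbing around the means -/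
noncomputable def meanBound (a b H : ℝ) : ℝ :=
  ker a b + min (1 / 2) (cornerRatio a b) * ((ent a + ent b) / 2 - H)

/-- the lower bound for the average induction hypothesis -/
noncomputable def avgBound (a b H : ℝ) : ℝ :=
  max (curve (H + (phi a + phi b) / 2))
    (((1 - a ^ 2) + (1 - b ^ 2)) / 2 * curve (H / (((1 - a ^ 2) + (1 - b ^ 2)) / 2)))

/-- the three variable inequality, for the one ordering which suffices -/
def ScalarTwoPoint : Prop :=
  ∀ a b H : ℝ, b ≤ a → a < 1 → -1 < b → 0 ≤ a + b → 0 < H → H ≤ (ent a + ent b) / 2 →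
    gMax ((a + b) / 2) H ≤
      max (meanBound a b H) (pairBound ((a - b) / 2) H) + avgBound a b H

/-- the induction step, for an arbitrary finite family of pairs -/
def StepInequality : Prop :=
  ∀ (ι : Type) [Fintype ι] [Nonempty ι] (a b : ι → ℝ),
    (∀ i, |a i| < 1) → (∀ i, |b i| < 1) →
    let c : ℝ := (Fintype.card ι : ℝ)
    gMax (((∑ i, a i) / c + (∑ i, b i) / c) / 2)
        (((∑ i, ent (a i)) / c + (∑ i, ent (b i)) / c) / 2) ≤
      (∑ i, ker (a i) (b i)) / c
        + gMax ((∑ i, a i) / c) ((∑ i, ent (a i)) / c) / 2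
        + gMax ((∑ i, b i) / c) ((∑ i, ent (b i)) / c) / 2

end Vale.Agent.P322
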