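import Vale.Agent.P322.Basic

/-!
Statements of the separately proved components of the proof.
-/

namespace Vale.Agent.P322

open Real Set

/-- partial derivative of `ker` in the first variable -/
noncomputable def kerDeriv (a b : ℝ) : ℝ :=
  (artanh a - artanh b + (a - b) / (1 - a ^ 2)) / 4

/-- Bregman divergence of `phi` -/
noncomputable def bregPhi (a a₀ : ℝ) : ℝ := phi a - phi a₀ - artanh a₀ * (a - a₀)

/-- pointwise certificate behind `pairBound` -/
def PairCertificate : Prop :=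
  ∀ a b s : ℝ, |a| < 1 → |b| < 1 → s ∈ Ioo (0 : ℝ) 1 →
    (artanh s + lamFun s * (ent s / s)) * (|a - b| / 2) - lamFun s * ((ent a + ent b) / 2)
      ≤ ker a b

/-- pointwise certificate behind `meanBound` -/
def MeanCertificate : Prop :=
  ∀ a₀ b₀ a b : ℝ, -1 < b₀ → b₀ ≤ a₀ → a₀ < 1 → 0 ≤ a₀ + b₀ → |a| < 1 → |b| < 1 →
    ker a₀ b₀ + kerDeriv a₀ b₀ * (a - a₀) + kerDeriv b₀ a₀ * (b - b₀)
      + min (1 / 2) (cornerRatio a₀ b₀) * ((bregPhi a a₀ + bregPhi b b₀) / 2)
      ≤ ker a b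

end Vale.Agent.P322
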