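import Vale.Agent.P322.Interface

/-!
The pointwise certificate behind `pairBound`.

In the coordinates `a = tanh (v + t)`, `b = tanh (v - t)` the entropy average, multiplied by
`S = cosh 2v + cosh 2t`, is `pairFun t v`, while `(a - b)/2 * S = sinh 2t` does not depend on `v`.
`pairFun t` increases on `v ≥ 0`, so the worst case is the antisymmetric pair `v = 0`.
-/

namespace Vale.Agent.P322

open Real Set

/-- `S * (ent (tanh (v + t)) + ent (tanh (v - t))) / 2` with `S = cosh 2v + cosh 2t`. -/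
noncomputable def pairFun (t v : ℝ) : ℝ :=
  (cosh (2 * v) + cosh (2 * t)) * log (2 * (cosh (2 * v) + cosh (2 * t))) / 2
    - v * sinh (2 * v) - t * sinh (2 * t)

lemma ent_tanh (x : ℝ) : ent (tanh x) = log (2 * cosh x) - x * tanh x := by
  have h := nfun_eq (neg_one_lt_tanh x) (tanh_lt_one x)
  rw [artanh_tanh] at h
  have hc := cosh_pos x
  have e : 1 - tanh x ^ 2 = (cosh x ^ 2)⁻¹ := by
    rw [tanh_eq_sinh_div_cosh]; field_simp; rw [cosh_sq x]; ring
  rw [nfun, e, log_inv, log_pow] at h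
  rw [log_mul two_ne_zero hc.ne']
  push_cast at h
  linarith

lemma two_mul_cosh_mul_cosh (t v : ℝ) :
    2 * (cosh (v + t) * cosh (v - t)) = cosh (2 * v) + cosh (2 * t) := by
  rw [show 2 * v = (v + t) + (v - t) by ring, show 2 * t = (v + t) - (v - t) by ring,
    cosh_add (v + t) (v - t), cosh_sub (v + t) (v - t)]
  ring

lemma cosh_sum_mul_tanh (t v : ℝ) :
    (cosh (2 * v) + cosh (2 * t)) * tanh (v + t) = sinh (2 * v) + sinh (2 * t) := by
  rw [← two_mul_cosh_mul_cosh, tanh_eq_sinh_div_cosh,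
    show 2 * v = (v + t) + (v - t) by ring, show 2 * t = (v + t) - (v - t) by ring,
    sinh_add (v + t) (v - t), sinh_sub (v + t) (v - t)]
  have := cosh_pos (v + t)
  field_simp
  ring

lemma cosh_sum_mul_tanh' (t v : ℝ) :
    (cosh (2 * v) + cosh (2 * t)) * tanh (v - t) = sinh (2 * v) - sinh (2 * t) := by
  have := cosh_sum_mul_tanh (-t) v
  rw [mul_neg, cosh_neg, sinh_neg, ← sub_eq_add_neg, ← sub_eq_add_neg] at this
  exact this

lemma pairFun_eq (t v : ℝ) :
    (cosh (2 * v) + cosh (2 * t)) * ((ent (tanh (v + t)) + ent (tanh (v - t))) / 2)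
      = pairFun t v := by
  have hp := cosh_pos (v + t)
  have hm := cosh_pos (v - t)
  have e : log (2 * (cosh (2 * v) + cosh (2 * t)))
      = log (2 * cosh (v + t)) + log (2 * cosh (v - t)) := by
    rw [← log_mul (by positivity) (by positivity), ← two_mul_cosh_mul_cosh]
    congr 1; ring
  rw [ent_tanh, ent_tanh, pairFun, e]
  linear_combination (-(v + t) / 2) * cosh_sum_mul_tanh t v
    + (-(v - t) / 2) * cosh_sum_mul_tanh' t v

lemma hasDerivAt_pairFun (t v : ℝ) :
    HasDerivAt (pairFun t)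
      (sinh (2 * v) * log (2 * (cosh (2 * v) + cosh (2 * t))) - 2 * v * cosh (2 * v)) v := by
  have hS : 0 < cosh (2 * v) + cosh (2 * t) := add_pos (cosh_pos _) (cosh_pos _)
  have h2 : HasDerivAt (fun w : ℝ => 2 * w) 2 v := by
    simpa using (hasDerivAt_id v).const_mul 2
  have hSd := h2.cosh.add_const (cosh (2 * t))
  have := ((((hSd.mul ((hSd.const_mul 2).log (by positivity))).div_const 2).sub
    ((hasDerivAt_id v).mul h2.sinh)).sub_const (t * sinh (2 * t)))
  refine HasDerivAt.congr_deriv (show HasDerivAt (pairFun t) _ v from this) ?_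
  simp only [id_eq]
  field_simp
  ring

/-- The derivative of `pairFun t` is nonnegative for `v ≥ 0`. -/
lemma pairFun_deriv_nonneg {t v : ℝ} (hv : 0 ≤ v) :
    0 ≤ sinh (2 * v) * log (2 * (cosh (2 * v) + cosh (2 * t))) - 2 * v * cosh (2 * v) := by
  set e := exp (-v) with he
  have he0 : 0 < e := exp_pos _
  have he1 : e ≤ 1 := exp_le_one_iff.2 (by linarith)
  have hq : exp (-(2 * v)) = e ^ 2 := by rw [he, ← exp_nat_mul]; ring_nf
  have hq' : exp (2 * v) = (e ^ 2)⁻¹ := by rw [← hq, ← exp_neg, neg_neg]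
  -- `log (2 cosh v) = v + log (1 + q)`
  have hl : log (2 * cosh v) = v + log (1 + e ^ 2) := by
    rw [← hq]
    nth_rewrite 2 [← log_exp v]
    rw [← log_mul (exp_ne_zero _) (by positivity), cosh_eq, mul_add (exp v), ← exp_add]
    congr 1
    rw [show v + -(2 * v) = -v by ring]
    ring
  have hS : 2 * log (2 * cosh v) ≤ log (2 * (cosh (2 * v) + cosh (2 * t))) := by
    rw [show (2 : ℝ) * log (2 * cosh v) = log ((2 * cosh v) ^ 2) by rw [log_pow]; norm_num]
    refine log_le_log (by have := cosh_pos v; positivity) ?_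
    have := one_le_cosh (2 * t)
    nlinarith [cosh_sq v, cosh_two_mul v]
  have hs : 0 ≤ sinh (2 * v) := sinh_nonneg_iff.2 (by linarith)
  have key : v * cosh (2 * v) ≤ sinh (2 * v) * (v + log (1 + e ^ 2)) := by
    -- this is `2 q v ≤ (1/q - q) log (1 + q)` with `q = e ^ 2`
    have hv' : v ≤ (e⁻¹ - e) / 2 := by
      have := self_le_sinh_iff.2 hv
      rwa [sinh_eq, show exp v = e⁻¹ by rw [he, exp_neg, inv_inv]] at this
    have hlog : 2 * e ^ 2 / (e ^ 2 + 2) ≤ log (1 + e ^ 2) :=
      le_log_one_add_of_nonneg (sq_nonneg e)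
    have h2 : 0 ≤ (e ^ 2)⁻¹ - e ^ 2 := by
      rw [sub_nonneg, le_inv_comm₀ (by positivity) (by positivity)]
      exact le_trans (by nlinarith) ((one_le_inv₀ (by positivity)).2 (by nlinarith))
    have h3 : 2 * e ^ 2 * v ≤ ((e ^ 2)⁻¹ - e ^ 2) * log (1 + e ^ 2) := by
      calc 2 * e ^ 2 * v ≤ 2 * e ^ 2 * ((e⁻¹ - e) / 2) := by gcongr
        _ = e * (1 - e ^ 2) := by field_simp
        _ ≤ (1 - e ^ 2) * (2 * (1 + e ^ 2) / (e ^ 2 + 2)) := by
          rw [mul_comm e]
          refine mul_le_mul_of_nonneg_left ?_ (by nlinarith)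
          rw [le_div_iff₀ (by positivity)]
          nlinarith
        _ = ((e ^ 2)⁻¹ - e ^ 2) * (2 * e ^ 2 / (e ^ 2 + 2)) := by field_simp; ring
        _ ≤ _ := mul_le_mul_of_nonneg_left hlog h2
    rw [sinh_eq, cosh_eq, hq, hq']
    nlinarith
  rw [← hl] at key
  nlinarith [mul_le_mul_of_nonneg_left hS hs]

lemma pairFun_zero_le (t v : ℝ) : pairFun t 0 ≤ pairFun t v := by
  have key : MonotoneOn (pairFun t) (Ici 0) :=
    monotoneOn_of_hasDerivWithinAt_nonneg (convex_Ici 0)
      (fun w _ => (hasDerivAt_pairFun t w).continuousAt.continuousWithinAt)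
      (fun w _ => (hasDerivAt_pairFun t w).hasDerivWithinAt)
      (fun w hw => pairFun_deriv_nonneg (mem_Ici.1 (interior_subset hw)))
  rcases le_total 0 v with h | h
  · exact key (mem_Ici.2 le_rfl) (mem_Ici.2 h) h
  · have e : pairFun t (-v) = pairFun t v := by
      simp only [pairFun, mul_neg, cosh_neg, sinh_neg, neg_mul, neg_neg]
    rw [← e]
    exact key (mem_Ici.2 le_rfl) (mem_Ici.2 (neg_nonneg.2 h)) (neg_nonneg.2 h)

lemma tanh_pos' {t : ℝ} (ht : 0 < t) : 0 < tanh t := by
  rw [tanh_eq_sinh_div_cosh]; exact div_pos (sinh_pos_iff.2 ht) (cosh_pos t)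

/-- The antisymmetric pair has the smallest average entropy for a given `t`. -/
lemma pair_entropy_le {t : ℝ} (ht : 0 < t) (v : ℝ) :
    (tanh (v + t) - tanh (v - t)) / 2 * (ent (tanh t) / tanh t)
      ≤ (ent (tanh (v + t)) + ent (tanh (v - t))) / 2 := by
  have hS : 0 < cosh (2 * v) + cosh (2 * t) := add_pos (cosh_pos _) (cosh_pos _)
  have hτ : 0 < tanh t := tanh_pos' ht
  have hdiff : (cosh (2 * v) + cosh (2 * t)) * ((tanh (v + t) - tanh (v - t)) / 2)
      = sinh (2 * t) := by
    linear_combination (1 / 2) * cosh_sum_mul_tanh t v - (1 / 2) * cosh_sum_mul_tanh' t v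
  have hzero : sinh (2 * t) * (ent (tanh t) / tanh t) = pairFun t 0 := by
    rw [← pairFun_eq, zero_add, zero_sub, tanh_neg, ent_neg, mul_zero, cosh_zero]
    have := cosh_sum_mul_tanh t 0
    rw [zero_add, mul_zero, cosh_zero, sinh_zero, zero_add] at this
    rw [← this]
    field_simp
    ring
  refine le_of_mul_le_mul_left ?_ hS
  rw [← mul_assoc, hdiff, hzero, pairFun_eq]
  exact pairFun_zero_le t v

lemma pairCertificate_of_lt {a b s : ℝ} (ha : |a| < 1) (hb : |b| < 1) (hs : s ∈ Ioo (0 : ℝ) 1)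
    (hab : b < a) :
    (artanh s + lamFun s * (ent s / s)) * ((a - b) / 2) - lamFun s * ((ent a + ent b) / 2)
      ≤ ker a b := by
  rw [abs_lt] at ha hb
  set p := artanh a with hp
  set m := artanh b with hm
  have hpm : m < p := strictMonoOn_artanh ⟨hb.1, hb.2⟩ ⟨ha.1, ha.2⟩ hab
  set t := (p - m) / 2 with ht
  have ht0 : 0 < t := by linarith
  have hA : tanh ((p + m) / 2 + t) = a := by
    rw [ht, show (p + m) / 2 + (p - m) / 2 = p by ring, hp, tanh_artanh ⟨ha.1, ha.2⟩]
  have hB : tanh ((p + m) / 2 - t) = b := by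
    rw [ht, show (p + m) / 2 - (p - m) / 2 = m by ring, hm, tanh_artanh ⟨hb.1, hb.2⟩]
  have hL := pair_entropy_le ht0 ((p + m) / 2)
  rw [hA, hB] at hL
  have hτ : tanh t ∈ Ioo (0 : ℝ) 1 := ⟨tanh_pos' ht0, tanh_lt_one t⟩
  have h1 := mul_le_mul_of_nonneg_right (pair_tangent_param hτ hs)
    (show (0 : ℝ) ≤ (a - b) / 2 by linarith)
  have h2 := mul_le_mul_of_nonneg_left hL (lamFun_nonneg (by linarith [hs.1]) hs.2)
  have hker : ker a b = (a - b) / 2 * artanh (tanh t) := by
    rw [artanh_tanh, ker, ← hp, ← hm, ht]; ring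
  rw [hker]
  nlinarith

theorem pairCertificate : PairCertificate := by
  intro a b s ha hb hs
  rcases lt_trichotomy b a with h | rfl | h
  · rw [abs_of_pos (sub_pos.2 h)]
    exact pairCertificate_of_lt ha hb hs h
  · have h1 := lamFun_nonneg (show -1 < s by linarith [hs.1]) hs.2
    have h2 := ent_pos (abs_lt.1 ha).1 (abs_lt.1 ha).2
    simp only [sub_self, abs_zero, zero_div, mul_zero, ker]
    nlinarith
  · rw [abs_of_neg (sub_neg.2 h), neg_sub, add_comm (ent a)]
    refine (pairCertificate_of_lt hb ha hs h).trans (le_of_eq ?_)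
    unfold ker; ring

end Vale.Agent.P322
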