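import Mathlib.Analysis.SpecialFunctions.Log.Base
import Mathlib.Data.Fintype.Pi

/-!
Statement of the Courtade-Kumar inequality. A sign is coded by a Boolean.
-/

namespace Vale.Agent.P322

/-- mutual information, in bits, of a pair of finite random variables with joint law `p` -/
noncomputable def mutualInfo {α β : Type} [Fintype α] [Fintype β] (p : α → β → ℝ) : ℝ :=
  ∑ a, ∑ b, p a b * Real.logb 2 (p a b / ((∑ b', p a b') * ∑ a', p a' b))

/-- joint law of `(X, Y)`: `X` is uniform on the cube and each coordinate of `X` is flipped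
independently with probability `ε` -/
noncomputable def channelLaw {n : ℕ} (ε : ℝ) (x y : Fin n → Bool) : ℝ :=
  (∏ i, if x i = y i then 1 - ε else ε) / 2 ^ n

/-- joint law of `(f X, Y)` -/
noncomputable def outputLaw {n : ℕ} (f : (Fin n → Bool) → Bool) (ε : ℝ) (b : Bool)
    (y : Fin n → Bool) : ℝ :=
  ∑ x, if f x = b then channelLaw ε x y else 0

/-- binary entropy, in bits -/
noncomputable def binEntBits (p : ℝ) : ℝ :=
  -p * Real.logb 2 p - (1 - p) * Real.logb 2 (1 - p)

/-- the Courtade-Kumar inequality for all dimensions, functions and crossover probabilities -/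
def CourtadeKumar : Prop :=
  ∀ (n : ℕ) (f : (Fin n → Bool) → Bool) (ε : ℝ), 0 ≤ ε → ε ≤ 1 / 2 →
    mutualInfo (outputLaw f ε) ≤ 1 - binEntBits ε

end Vale.Agent.P322
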