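import Vale.Agent.P322.Basic
import Vale.Agent.P322.Statement

/-!
From the induction step to the Courtade-Kumar inequality: induction on the dimension gives a lower
bound for the dissipation, which is then integrated in the noise parameter.
-/

namespace Vale.Agent.P322

open Real Set Finset

variable {n : ℕ}

/-- the uniform average -/
noncomputable def avgU {ι : Type} [Fintype ι] (g : ι → ℝ) : ℝ := (∑ i, g i) / (Fintype.card ι : ℝ)

/-- flip one coordinate -/
def flipAt (i : Fin n) (y : Fin n → Bool) : Fin n → Bool := Function.update y i (!y i)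

/-- the dissipation -/
noncomputable def diss (u : (Fin n → Bool) → ℝ) : ℝ :=
  ∑ i, avgU fun y => ker (u y) (u (flipAt i y))

lemma ker_comm (a b : ℝ) : ker a b = ker b a := by unfold ker; ring

lemma flipAt_flipAt (i : Fin n) (y : Fin n → Bool) : flipAt i (flipAt i y) = y := by
  funext j
  by_cases h : j = i
  · subst h; simp [flipAt]
  · simp [flipAt, h]

lemma flipAt_cons_zero (c : Bool) (x : Fin n → Bool) :
    flipAt 0 (Fin.cons c x : Fin (n + 1) → Bool) = Fin.cons (!c) x := by
  simp [flipAt, Fin.update_cons_zero]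

lemma flipAt_cons_succ (c : Bool) (x : Fin n → Bool) (i : Fin n) :
    flipAt i.succ (Fin.cons c x : Fin (n + 1) → Bool) = Fin.cons c (flipAt i x) := by
  simp [flipAt, Fin.cons_update]

lemma avgU_split (g : (Fin (n + 1) → Bool) → ℝ) :
    avgU g = (avgU (fun x => g (Fin.cons true x)) + avgU (fun x => g (Fin.cons false x))) / 2 := by
  have h := Equiv.sum_comp (Fin.consEquiv fun _ : Fin (n + 1) => Bool) g
  rw [Fintype.sum_prod_type, Fintype.sum_bool] at h
  simp only [avgU, ← h, Fintype.card_fun, Fintype.card_bool, Fintype.card_fin]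
  push_cast
  rw [pow_succ]
  field_simp
  rfl

lemma phi_le_sq_mul {c : ℝ} (h₁ : -1 < c) (h₂ : c < 1) : phi c ≤ c ^ 2 * log 2 := by
  suffices h : ∀ c : ℝ, 0 < c → c < 1 → phi c ≤ c ^ 2 * log 2 by
    rcases lt_trichotomy c 0 with hc | hc | hc
    · have := h (-c) (by linarith) (by linarith)
      rwa [phi_neg, neg_sq] at this
    · simp [hc]
    · exact h c hc h₂
  intro c hc hc1
  have aux : ∀ t ∈ Ioo (0 : ℝ) 1, 2 * phi t ≤ t * artanh t := by
    intro t ht
    have hd : ∀ x ∈ Ico (0 : ℝ) 1,
        HasDerivAt (fun x => x * artanh x - 2 * phi x) (x / (1 - x ^ 2) - artanh x) x := by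
      intro x hx
      have := ((hasDerivAt_id x).mul (hasDerivAt_artanh' (by linarith [hx.1]) hx.2)).sub
        ((hasDerivAt_phi (by linarith [hx.1]) hx.2).const_mul 2)
      exact this.congr_deriv (by simp only [id_eq]; ring)
    have key : MonotoneOn (fun x => x * artanh x - 2 * phi x) (Ico 0 1) := by
      apply monotoneOn_of_hasDerivWithinAt_nonneg (convex_Ico 0 1)
        (fun x hx => (hd x hx).continuousAt.continuousWithinAt)
        (fun x hx => (hd x (interior_subset hx)).hasDerivWithinAt)
      intro x hx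
      rw [interior_Ico] at hx
      have hq := one_sub_sq_pos (show -1 < x by linarith [hx.1]) hx.2
      rw [sub_nonneg, le_div_iff₀ hq, mul_comm]
      exact artanh_mul_one_sub_sq_le hx.1.le hx.2
    have := key ⟨le_rfl, zero_lt_one⟩ ⟨ht.1.le, ht.2⟩ ht.1.le
    simp at this
    linarith
  have hd : ∀ t ∈ Ioo (0 : ℝ) 1,
      HasDerivAt (fun t => phi t / t ^ 2) ((t * artanh t - 2 * phi t) / t ^ 3) t := by
    intro t ht
    have := (hasDerivAt_phi (by linarith [ht.1]) ht.2).div (hasDerivAt_pow 2 t)
      (pow_ne_zero 2 ht.1.ne')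
    refine this.congr_deriv ?_
    have := ht.1
    push_cast
    field_simp
  have key : MonotoneOn (fun t => phi t / t ^ 2) (Ioc 0 1) := by
    apply monotoneOn_of_hasDerivWithinAt_nonneg (convex_Ioc 0 1)
    · exact continuous_phi.continuousOn.div (continuous_pow 2).continuousOn
        fun t ht => pow_ne_zero 2 ht.1.ne'
    · intro t ht
      rw [interior_Ioc] at ht
      exact (hd t ht).hasDerivWithinAt
    · intro t ht
      rw [interior_Ioc] at ht
      exact div_nonneg (by linarith [aux t ht]) (pow_nonneg ht.1.le 3)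
  have := key ⟨hc, hc1.le⟩ ⟨zero_lt_one, le_rfl⟩ hc1.le
  simp only [phi_one, one_pow, div_one] at this
  rw [div_le_iff₀ (pow_pos hc 2)] at this
  linarith

lemma gMax_single {c : ℝ} (h₁ : -1 < c) (h₂ : c < 1) : gMax c (ent c) ≤ 0 := by
  refine max_le (le_of_eq ?_) (le_of_eq ?_)
  · exact curve_eq_zero (by simp [ent])
  · have hq := one_sub_sq_pos h₁ h₂
    rw [gTwo, curve_eq_zero, mul_zero]
    rw [le_div_iff₀ hq]
    have := phi_le_sq_mul h₁ h₂
    unfold ent
    linarith

/-- the lower bound for the dissipation, by induction on the dimension -/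
theorem gMax_le_diss (hstep : StepInequality) :
    ∀ (n : ℕ) (u : (Fin n → Bool) → ℝ), (∀ y, |u y| < 1) →
      gMax (avgU u) (avgU fun y => ent (u y)) ≤ diss u := by
  intro n
  induction n with
  | zero =>
    intro u hu
    have e : ∀ g : (Fin 0 → Bool) → ℝ, avgU g = g default := fun g => by
      rw [avgU, Fintype.sum_unique, Fintype.card_unique]; simp only [Nat.cast_one, div_one]
      exact congrArg g (Subsingleton.elim _ _)
    rw [e, e, diss, Finset.univ_eq_empty, Finset.sum_empty]
    exact gMax_single (abs_lt.1 (hu default)).1 (abs_lt.1 (hu default)).2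
  | succ n ih =>
    intro u hu
    set a := fun x : Fin n → Bool => u (Fin.cons true x) with ha
    set b := fun x : Fin n → Bool => u (Fin.cons false x) with hb
    have e0 : avgU (fun y => ker (u y) (u (flipAt 0 y))) = avgU fun x => ker (a x) (b x) := by
      rw [avgU_split]
      simp only [flipAt_cons_zero, Bool.not_true, Bool.not_false, ha, hb]
      rw [show avgU (fun x => ker (u (Fin.cons false x)) (u (Fin.cons true x))) =
        avgU fun x => ker (u (Fin.cons true x)) (u (Fin.cons false x)) from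
          congrArg avgU (funext fun x => ker_comm _ _)]
      ring
    have e1 : diss u = avgU (fun x => ker (a x) (b x)) + (diss a + diss b) / 2 := by
      rw [diss, Fin.sum_univ_succ, e0, diss, diss, ← Finset.sum_add_distrib, Finset.sum_div]
      congr 1
      refine Finset.sum_congr rfl fun i _ => ?_
      rw [avgU_split]
      simp only [flipAt_cons_succ, ha, hb]
    have h1 := hstep (Fin n → Bool) a b (fun x => hu _) (fun x => hu _)
    have h2 := ih a fun x => hu _
    have h3 := ih b fun x => hu _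
    rw [e1, avgU_split u, avgU_split fun y => ent (u y)]
    simp only [avgU, ha, hb] at h1 h2 h3 ⊢
    linarith

/-! ## The semigroup -/

/-- the sign coded by a Boolean -/
def sgnB (b : Bool) : ℝ := if b then 1 else -1

/-- conditional expectation of the sign `f X` given `Y = y`, at correlation `r` -/
noncomputable def smooth (f : (Fin n → Bool) → Bool) (r : ℝ) (y : Fin n → Bool) : ℝ :=
  ∑ x, (∏ i, (1 + r * (sgnB (x i) * sgnB (y i))) / 2) * sgnB (f x)

lemma sgnB_mul (a b : Bool) : sgnB a * sgnB b = if a = b then 1 else -1 := by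
  cases a <;> cases b <;> norm_num [sgnB]

lemma sgnB_not (b : Bool) : sgnB (!b) = -sgnB b := by cases b <;> norm_num [sgnB]

lemma abs_sgnB (b : Bool) : |sgnB b| = 1 := by cases b <;> norm_num [sgnB]

lemma factor_nonneg {r : ℝ} (h₀ : 0 ≤ r) (h₁ : r ≤ 1) (a b : Bool) :
    0 ≤ (1 + r * (sgnB a * sgnB b)) / 2 := by
  rw [sgnB_mul]; split_ifs <;> linarith

lemma sum_weight_left (r : ℝ) (y : Fin n → Bool) :
    ∑ x : Fin n → Bool, ∏ i, (1 + r * (sgnB (x i) * sgnB (y i))) / 2 = 1 := by
  rw [← Fintype.prod_sum (fun i (b : Bool) => (1 + r * (sgnB b * sgnB (y i))) / 2)]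
  refine Finset.prod_eq_one fun i _ => ?_
  rw [Fintype.sum_bool]
  cases y i <;> simp [sgnB] <;> ring

lemma sum_weight_right (r : ℝ) (x : Fin n → Bool) :
    ∑ y : Fin n → Bool, ∏ i, (1 + r * (sgnB (x i) * sgnB (y i))) / 2 = 1 := by
  simp only [mul_comm (sgnB (x _))]
  exact sum_weight_left r x

lemma abs_smooth_le (f : (Fin n → Bool) → Bool) {r : ℝ} (h₀ : 0 ≤ r) (h₁ : r ≤ 1)
    (y : Fin n → Bool) : |smooth f r y| ≤ 1 := by
  refine (Finset.abs_sum_le_sum_abs _ _).trans (le_of_eq ?_)
  refine (Finset.sum_congr rfl fun x _ => ?_).trans (sum_weight_left r y)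
  rw [abs_mul, abs_sgnB, mul_one,
    abs_of_nonneg (Finset.prod_nonneg fun i _ => factor_nonneg h₀ h₁ _ _)]

lemma abs_smooth_lt {f : (Fin n → Bool) → Bool} (hne : ∀ b, ∃ x, f x = b) {r : ℝ} (h₀ : 0 ≤ r)
    (h₁ : r < 1) (y : Fin n → Bool) : |smooth f r y| < 1 := by
  have hw : ∀ x : Fin n → Bool, 0 < ∏ i, (1 + r * (sgnB (x i) * sgnB (y i))) / 2 := fun x =>
    Finset.prod_pos fun i _ => by rw [sgnB_mul]; split_ifs <;> linarith
  have hs : ∀ x, -1 ≤ sgnB (f x) ∧ sgnB (f x) ≤ 1 := fun x => abs_le.1 (abs_sgnB _).le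
  obtain ⟨xt, ht⟩ := hne true
  obtain ⟨xf, hf⟩ := hne false
  rw [abs_lt]
  constructor
  · have h : (0 : ℝ) < ∑ x : Fin n → Bool,
        (∏ i, (1 + r * (sgnB (x i) * sgnB (y i))) / 2) * (sgnB (f x) + 1) := by
      refine Finset.sum_pos' (fun x _ => by nlinarith [hw x, (hs x).1]) ⟨xt, mem_univ _, ?_⟩
      exact mul_pos (hw xt) (by rw [ht]; norm_num [sgnB])
    simp only [mul_add, mul_one, Finset.sum_add_distrib, sum_weight_left] at h
    rw [smooth]; linarith
  · have h : (0 : ℝ) < ∑ x : Fin n → Bool,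
        (∏ i, (1 + r * (sgnB (x i) * sgnB (y i))) / 2) * (1 - sgnB (f x)) := by
      refine Finset.sum_pos' (fun x _ => by nlinarith [hw x, (hs x).2]) ⟨xf, mem_univ _, ?_⟩
      exact mul_pos (hw xf) (by rw [hf]; norm_num [sgnB])
    simp only [mul_sub, mul_one, Finset.sum_sub_distrib, sum_weight_left] at h
    rw [smooth]; linarith

lemma avgU_smooth (f : (Fin n → Bool) → Bool) (r : ℝ) :
    avgU (smooth f r) = avgU fun x => sgnB (f x) := by
  simp only [avgU, smooth]
  rw [Finset.sum_comm]
  congr 1
  refine Finset.sum_congr rfl fun x _ => ?_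
  rw [← Finset.sum_mul, sum_weight_right, one_mul]

lemma continuous_smooth (f : (Fin n → Bool) → Bool) (y : Fin n → Bool) :
    Continuous fun r => smooth f r y := by
  unfold smooth; fun_prop

/-- the derivative of the noise operator -/
noncomputable def smoothD (f : (Fin n → Bool) → Bool) (r : ℝ) (y : Fin n → Bool) : ℝ :=
  ∑ x, (∑ i, (∏ j ∈ univ.erase i, (1 + r * (sgnB (x j) * sgnB (y j))) / 2)
    * (sgnB (x i) * sgnB (y i) / 2)) * sgnB (f x)

lemma hasDerivAt_smooth (f : (Fin n → Bool) → Bool) (r : ℝ) (y : Fin n → Bool) :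
    HasDerivAt (fun r => smooth f r y) (smoothD f r y) r := by
  unfold smooth smoothD
  refine HasDerivAt.fun_sum fun x _ => HasDerivAt.mul_const ?_ _
  have := HasDerivAt.fun_finsetProd (u := (univ : Finset (Fin n))) (x := r)
    (f := fun i r => (1 + r * (sgnB (x i) * sgnB (y i))) / 2)
    (f' := fun i => sgnB (x i) * sgnB (y i) / 2) (fun i _ => by
      simpa using (((hasDerivAt_id r).mul_const (sgnB (x i) * sgnB (y i))).const_add 1).div_const 2)
  simpa [smul_eq_mul] using this

lemma mul_smoothD (f : (Fin n → Bool) → Bool) (r : ℝ) (y : Fin n → Bool) :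
    r * smoothD f r y = ∑ i, (smooth f r y - smooth f r (flipAt i y)) / 2 := by
  simp only [smoothD, smooth, ← Finset.sum_sub_distrib, Finset.sum_div, Finset.mul_sum,
    Finset.sum_mul]
  rw [Finset.sum_comm]
  refine Finset.sum_congr rfl fun i _ => Finset.sum_congr rfl fun x _ => ?_
  rw [← Finset.mul_prod_erase univ _ (mem_univ i), ← Finset.mul_prod_erase univ _ (mem_univ i)]
  have hrest : ∀ j ∈ univ.erase i, flipAt i y j = y j := fun j hj => by
    simp [flipAt, (Finset.mem_erase.1 hj).1]
  rw [Finset.prod_congr rfl fun j hj => congrArg (fun b => (1 + r * (sgnB (x j) * sgnB b)) / 2)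
    (hrest j hj)]
  simp only [flipAt, Function.update_self, sgnB_not]
  ring

lemma avgU_swap (i : Fin n) (g : (Fin n → Bool) → ℝ) :
    avgU (fun y => g (flipAt i y)) = avgU g := by
  simp only [avgU]
  congr 1
  exact Equiv.sum_comp (Function.Involutive.toPerm _ (flipAt_flipAt i)) g

lemma diss_eq (u : (Fin n → Bool) → ℝ) :
    diss u = avgU fun y => artanh (u y) * ∑ i, (u y - u (flipAt i y)) / 2 := by
  have h : ∀ i, avgU (fun y => ker (u y) (u (flipAt i y))) =
      avgU fun y => artanh (u y) * ((u y - u (flipAt i y)) / 2) := by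
    intro i
    have e := avgU_swap i fun y => artanh (u y) * ((u y - u (flipAt i y)) / 2)
    simp only [flipAt_flipAt] at e
    have : avgU (fun y => ker (u y) (u (flipAt i y))) =
        (avgU (fun y => artanh (u y) * ((u y - u (flipAt i y)) / 2)) +
          avgU fun y => artanh (u (flipAt i y)) * ((u (flipAt i y) - u y) / 2)) / 2 := by
      simp only [avgU]
      rw [← add_div, ← Finset.sum_add_distrib, div_right_comm]
      congr 1
      rw [Finset.sum_div]
      refine Finset.sum_congr rfl fun y _ => ?_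
      unfold ker; ring
    rw [this, e]; ring
  rw [diss, Finset.sum_congr rfl fun i _ => h i]
  simp only [avgU, ← Finset.sum_div]
  rw [Finset.sum_comm]
  refine congrArg (fun t : ℝ => t / _) (Finset.sum_congr rfl fun y _ => ?_)
  rw [Finset.sum_div, Finset.mul_sum]

/-- the information gained, in nats -/
noncomputable def gain (f : (Fin n → Bool) → Bool) (r : ℝ) : ℝ :=
  avgU (fun y => phi (smooth f r y)) - phi (avgU fun x => sgnB (f x))

lemma continuous_gain (f : (Fin n → Bool) → Bool) : Continuous (gain f) :=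
  ((continuous_finsetSum _ fun y _ => continuous_phi.comp (continuous_smooth f y)).div_const _).sub
    continuous_const

lemma gain_eq (f : (Fin n → Bool) → Bool) (r : ℝ) :
    log 2 - gain f r =
      avgU (fun y => ent (smooth f r y)) + phi (avgU fun x => sgnB (f x)) := by
  simp only [gain, avgU, ent, Finset.sum_sub_distrib, Finset.sum_const, Finset.card_univ,
    nsmul_eq_mul]
  field_simp
  ring

lemma hasDerivAt_gain {f : (Fin n → Bool) → Bool} (hne : ∀ b, ∃ x, f x = b) {r : ℝ} (h₀ : 0 ≤ r)
    (h₁ : r < 1) :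
    HasDerivAt (gain f) (avgU fun y => artanh (smooth f r y) * smoothD f r y) r := by
  refine ((HasDerivAt.fun_sum fun y _ => ?_).div_const _).sub_const _
  have hu := abs_lt.1 (abs_smooth_lt hne h₀ h₁ y)
  exact (hasDerivAt_phi hu.1 hu.2).comp r (hasDerivAt_smooth f r y)

lemma curve_le_deriv (hstep : StepInequality) {f : (Fin n → Bool) → Bool}
    (hne : ∀ b, ∃ x, f x = b) {r : ℝ} (h₀ : 0 ≤ r) (h₁ : r < 1) :
    curve (log 2 - gain f r) ≤ r * avgU fun y => artanh (smooth f r y) * smoothD f r y := by
  have h := gMax_le_diss hstep n (smooth f r) (abs_smooth_lt hne h₀ h₁)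
  rw [diss_eq, avgU_smooth] at h
  refine ((le_of_eq ?_).trans (le_max_left _ _)).trans (h.trans (le_of_eq ?_))
  · rw [gain_eq]; rfl
  · simp only [avgU, ← mul_div_assoc, Finset.mul_sum]
    refine congrArg (· / _) (Finset.sum_congr rfl fun y _ => ?_)
    rw [mul_left_comm r, mul_smoothD, Finset.mul_sum]
    exact Finset.sum_congr rfl fun i _ => (mul_div_assoc _ _ _)

lemma gain_lt {f : (Fin n → Bool) → Bool} (hne : ∀ b, ∃ x, f x = b) {r : ℝ} (h₀ : 0 ≤ r)
    (h₁ : r < 1) : gain f r < log 2 := by
  have h := gain_eq f r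
  have hm : |avgU fun x => sgnB (f x)| ≤ 1 := by
    rw [avgU, abs_div, Nat.abs_cast, div_le_one (by exact_mod_cast Fintype.card_pos)]
    exact (Finset.abs_sum_le_sum_abs _ _).trans (le_of_eq (by simp [abs_sgnB]))
  have h2 := phi_nonneg (abs_le.1 hm).1 (abs_le.1 hm).2
  have h3 : 0 < avgU fun y => ent (smooth f r y) :=
    div_pos (Finset.sum_pos (fun y _ => ent_pos (abs_lt.1 (abs_smooth_lt hne h₀ h₁ y)).1
      (abs_lt.1 (abs_smooth_lt hne h₀ h₁ y)).2) Finset.univ_nonempty)
      (by exact_mod_cast Fintype.card_pos)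
  linarith

lemma gain_zero (f : (Fin n → Bool) → Bool) : gain f 0 = 0 := by
  have h : ∀ y, smooth f 0 y = avgU fun x => sgnB (f x) := fun y => by
    simp [smooth, avgU, Finset.mul_sum, div_eq_inv_mul]
  simp [gain, h, avgU]

/-- the information gain is at most that of a coordinate -/
theorem gain_le_phi (hstep : StepInequality) {f : (Fin n → Bool) → Bool}
    (hne : ∀ b, ∃ x, f x = b) {r₀ : ℝ} (h₀ : 0 ≤ r₀) (h₁ : r₀ < 1) : gain f r₀ ≤ phi r₀ := by
  by_contra hc
  push Not at hc
  have hr : 0 < r₀ := by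
    rcases h₀.lt_or_eq with h | h
    · exact h
    · subst h; simp [gain_zero] at hc
  have hP1 := gain_lt hne h₀ h₁
  have hP0 : 0 ≤ phi r₀ := phi_nonneg (by linarith) h₁.le
  set s₀ := entInv (log 2 - gain f r₀) with hs₀
  have hs := entInv_mem (H := log 2 - gain f r₀) (by linarith) (by linarith)
  have hse : phi s₀ = gain f r₀ := by
    have := ent_entInv (H := log 2 - gain f r₀) (by linarith) (by linarith)
    rw [← hs₀, ent] at this
    linarith
  have hrs : r₀ < s₀ := by
    by_contra hle
    have := ent_strictAntiOn.antitoneOn ⟨hs.1, hs.2.le⟩ ⟨h₀, h₁.le⟩ (not_lt.1 hle)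
    simp only [ent] at this
    linarith [hse]
  set r₁ := r₀ + (1 - s₀) with hr₁
  have hr11 : r₁ < 1 := by linarith
  have key := image_le_of_deriv_right_lt_deriv_boundary'
    (f := fun r => phi (s₀ + (r - r₀))) (a := r₀) (b := r₁)
    (f' := fun r => artanh (s₀ + (r - r₀))) (B := gain f)
    (B' := fun r => avgU fun y => artanh (smooth f r y) * smoothD f r y)
    ((continuous_phi.comp (continuous_const.add (continuous_id.sub continuous_const))).continuousOn)
    (fun r hr' => by
      have hd := ((hasDerivAt_id r).sub_const r₀).const_add s₀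
      have := (hasDerivAt_phi (u := s₀ + (r - r₀)) (by linarith [hr'.1, hs.1])
        (by linarith [hr'.2])).comp r hd
      rw [mul_one] at this
      exact this.hasDerivWithinAt)
    (by simp [hse]) (continuous_gain f).continuousOn
    (fun r hr' => (hasDerivAt_gain hne (by linarith [hr'.1]) (by linarith [hr'.2])).hasDerivWithinAt)
    (fun r hr' heq => ?_)
  · have := key (right_mem_Icc.2 (by linarith [hs.2]))
    simp only [hr₁, add_sub_cancel_left, add_sub_cancel, phi_one] at this
    linarith [gain_lt hne (show 0 ≤ r₁ by linarith [hs.2]) hr11]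
  · set w := s₀ + (r - r₀) with hw
    have hrpos : 0 < r := hr.trans_le hr'.1
    have hwr : r < w := by linarith
    have hw1 : w < 1 := by linarith [hr'.2]
    have hA : 0 < artanh w := artanh_pos ⟨hrpos.trans hwr, hw1⟩
    have hd := curve_le_deriv hstep hne hrpos.le (r := r) (by linarith [hr'.2])
    have heq' : phi w = gain f r := heq
    rw [← heq', show log 2 - phi w = ent w from rfl, curve_ent (by linarith) hw1] at hd
    have h3 : r * artanh w < r * avgU (fun y => artanh (smooth f r y) * smoothD f r y) :=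
      lt_of_lt_of_le (mul_lt_mul_of_pos_right hwr hA) hd
    exact lt_of_mul_lt_mul_left h3 hrpos.le

theorem gain_le (hstep : StepInequality) (f : (Fin n → Bool) → Bool) {r : ℝ} (h₀ : 0 ≤ r)
    (h₁ : r ≤ 1) : gain f r ≤ phi r := by
  by_cases hne : ∀ b, ∃ x, f x = b
  · rcases h₁.lt_or_eq with h | h
    · exact gain_le_phi hstep hne h₀ h
    · rw [h, phi_one]
      have h' : (1 : ℝ) ∈ closure (Ico (0 : ℝ) 1) := by
        rw [closure_Ico zero_ne_one]; exact right_mem_Icc.2 zero_le_one
      exact le_on_closure (f := gain f) (g := fun _ => log 2) (fun x hx => (gain_lt hne hx.1 hx.2).le)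
        (continuous_gain f).continuousOn continuousOn_const h'
  · push Not at hne
    obtain ⟨b, hb⟩ := hne
    have hc : ∀ x, f x = !b := fun x => Bool.eq_not.2 (hb x)
    have hs : ∀ y, smooth f r y = sgnB (!b) := fun y => by
      simp only [smooth, hc]
      rw [← Finset.sum_mul, sum_weight_left, one_mul]
    simp only [gain, hs, hc, avgU]
    rw [Finset.sum_const, Finset.card_univ, nsmul_eq_mul, Finset.sum_const, Finset.card_univ,
      nsmul_eq_mul, mul_div_cancel_left₀ _ (by positivity), mul_div_cancel_left₀ _ (by positivity),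
      sub_self]
    exact phi_nonneg (by linarith) h₁

/-! ## Mutual information -/

lemma channelLaw_eq (ε : ℝ) (x y : Fin n → Bool) :
    channelLaw ε x y = (∏ i, (1 + (1 - 2 * ε) * (sgnB (x i) * sgnB (y i))) / 2) / 2 ^ n := by
  unfold channelLaw
  congr 1
  refine Finset.prod_congr rfl fun i _ => ?_
  rw [sgnB_mul]
  split_ifs <;> ring

lemma outputLaw_eq (f : (Fin n → Bool) → Bool) (ε : ℝ) (b : Bool) (y : Fin n → Bool) :
    outputLaw f ε b y = (1 + sgnB b * smooth f (1 - 2 * ε) y) / 2 / 2 ^ n := by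
  rw [smooth]
  nth_rewrite 1 [← sum_weight_left (1 - 2 * ε) y]
  rw [Finset.mul_sum, ← Finset.sum_add_distrib, Finset.sum_div, Finset.sum_div, outputLaw]
  refine Finset.sum_congr rfl fun x _ => ?_
  rw [channelLaw_eq]
  cases hb : f x <;> cases b <;> simp [sgnB]

lemma mul_log_div {p q c : ℝ} (hc : 0 < c) (hq : q ≠ 0 ∨ p = 0) :
    p / c * log (p / c / (q * (1 / c))) = (p * log p - p * log q) / c := by
  rcases eq_or_ne p 0 with rfl | hp
  · simp
  · have hq' : q ≠ 0 := hq.resolve_right hp
    rw [show p / c / (q * (1 / c)) = p / q by field_simp, log_div hp hq']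
    ring

lemma phi_eq (u : ℝ) : phi u = (1 + u) / 2 * log ((1 + u) / 2) +
    (1 - u) / 2 * log ((1 - u) / 2) + log 2 := by
  have key : ∀ v : ℝ, v / 2 * log (v / 2) = v / 2 * log v - v / 2 * log 2 := by
    intro v
    rcases eq_or_ne v 0 with rfl | hv
    · simp
    · rw [log_div hv two_ne_zero]; ring
  rw [key, key, phi]; ring

/-- Mutual information in terms of the smoothed function. -/
theorem mutualInfo_eq (f : (Fin n → Bool) → Bool) {ε : ℝ} (h₀ : 0 ≤ ε) (h₁ : ε ≤ 1 / 2) :
    mutualInfo (outputLaw f ε) = gain f (1 - 2 * ε) / log 2 := by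
  set r := 1 - 2 * ε with hr
  set u := smooth f r with hu
  set m := avgU fun x => sgnB (f x) with hm
  have hN : (0 : ℝ) < 2 ^ n := by positivity
  have hcard : (Fintype.card (Fin n → Bool) : ℝ) = 2 ^ n := by simp
  have hmu : ∑ y, u y = 2 ^ n * m := by
    have := avgU_smooth f r
    rw [avgU, hcard, ← hm, div_eq_iff hN.ne'] at this
    linarith
  have hq : ∀ b, ∑ y, outputLaw f ε b y = (1 + sgnB b * m) / 2 := by
    intro b
    simp only [outputLaw_eq, ← hr, ← hu, ← Finset.sum_div, Finset.sum_add_distrib,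
      ← Finset.mul_sum, hmu, Finset.sum_const, Finset.card_univ, nsmul_eq_mul, hcard]
    field_simp
  have hy : ∀ y, ∑ b, outputLaw f ε b y = 1 / 2 ^ n := by
    intro y
    simp only [Fintype.sum_bool, outputLaw_eq, sgnB]
    norm_num
    ring
  have habs : ∀ y, |u y| ≤ 1 := fun y => abs_smooth_le f (by linarith) (by linarith) y
  have hz : ∀ b y, (1 + sgnB b * m) / 2 ≠ 0 ∨ (1 + sgnB b * u y) / 2 = 0 := by
    intro b y
    rw [or_iff_not_imp_left, not_not, ← hq]
    intro h
    have hnn : ∀ z, 0 ≤ outputLaw f ε b z := fun z => by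
      rw [outputLaw_eq, ← hr, ← hu]
      have := abs_le.1 (habs z)
      refine div_nonneg ?_ hN.le
      cases b <;> simp [sgnB] <;> linarith
    have := (Finset.sum_eq_zero_iff_of_nonneg fun z _ => hnn z).1 h y (mem_univ y)
    rwa [outputLaw_eq, ← hr, ← hu, div_eq_zero_iff, or_iff_left hN.ne'] at this
  unfold mutualInfo
  simp only [hq, hy, Real.logb]
  simp only [← mul_div_assoc (_ : ℝ) (Real.log _) (Real.log 2), ← Finset.sum_div]
  congr 1
  simp only [outputLaw_eq, ← hr, ← hu]
  rw [Finset.sum_congr rfl fun b _ => Finset.sum_congr rfl fun y _ => mul_log_div hN (hz b y)]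
  rw [Fintype.sum_bool, ← Finset.sum_add_distrib]
  have key : ∀ y,
      ((1 + sgnB true * u y) / 2 * log ((1 + sgnB true * u y) / 2) -
        (1 + sgnB true * u y) / 2 * log ((1 + sgnB true * m) / 2)) / 2 ^ n +
      ((1 + sgnB false * u y) / 2 * log ((1 + sgnB false * u y) / 2) -
        (1 + sgnB false * u y) / 2 * log ((1 + sgnB false * m) / 2)) / 2 ^ n =
      (phi (u y) - log 2 - (log ((1 + m) / 2) + log ((1 - m) / 2)) / 2 -
        u y * ((log ((1 + m) / 2) - log ((1 - m) / 2)) / 2)) / 2 ^ n := by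
    intro y
    simp only [sgnB, if_true, Bool.false_eq_true, if_false, one_mul, neg_one_mul, ← sub_eq_add_neg]
    rw [phi_eq (u y)]; ring
  simp only [key, ← Finset.sum_div, Finset.sum_sub_distrib, ← Finset.sum_mul, hmu,
    Finset.sum_const, Finset.card_univ, nsmul_eq_mul, hcard]
  rw [gain, ← hu, ← hm, avgU, hcard, phi_eq m]
  field_simp
  ring

lemma one_sub_binEntBits (ε : ℝ) : 1 - binEntBits ε = phi (1 - 2 * ε) / log 2 := by
  have hl : log 2 ≠ 0 := (log_pos one_lt_two).ne'
  rw [binEntBits, phi_eq, show (1 + (1 - 2 * ε)) / 2 = 1 - ε by ring,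
    show (1 - (1 - 2 * ε)) / 2 = ε by ring, Real.logb, Real.logb]
  field_simp
  ring

/-- The Courtade-Kumar inequality follows from the induction step. -/
theorem courtadeKumar_of_step (hstep : StepInequality) : CourtadeKumar := by
  intro n f ε h₀ h₁
  rw [mutualInfo_eq f h₀ h₁, one_sub_binEntBits]
  exact div_le_div_of_nonneg_right (gain_le hstep f (by linarith) (by linarith))
    (log_pos one_lt_two).le

end Vale.Agent.P322
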